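import Vale.Agent.P267.Statement
import Vale.Agent.P272.GEO.Osgood
import Mathlib.Analysis.Complex.RemovableSingularity
import Mathlib.Analysis.Calculus.Deriv.Pi
import Mathlib.Analysis.Analytic.IsolatedZeros
import Mathlib.Analysis.Analytic.Uniqueness
import Mathlib.Geometry.Manifold.MFDeriv.SpecificFunctions
import Mathlib.Geometry.Manifold.MFDeriv.Atlas

/-!
# Riemann extension in two variables

A continuous map, holomorphic off the zero set of a holomorphic function, is holomorphic.
-/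

open Set Filter Metric
open scoped Topology Manifold ContDiff
open Vale.Agent.P272.K (Cm)

noncomputable section

namespace Vale.Agent.P267.H615

section Local

variable {F : Type*} [NormedAddCommGroup F] [NormedSpace ℂ F] [CompleteSpace F]
  {E : Type*} [NormedAddCommGroup E] [NormedSpace ℂ E]

/-- Holomorphy along a direction `v` for which the equation `g` does not vanish identically. -/
theorem differentiableAt_line {B : Set E} (hB : IsOpen B) (hBc : Convex ℝ B) {g : E → ℂ} {f : E → F}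
    (hg : DifferentiableOn ℂ g B) (hf : ContinuousOn f B)
    (hfg : ∀ z ∈ B, g z ≠ 0 → DifferentiableAt ℂ f z) {q v : E} (hq : q ∈ B) (hqv : q + v ∈ B)
    (hgv : g (q + v) ≠ 0) : DifferentiableAt ℂ (fun t : ℂ => f (q + t • v)) 0 := by
  set V : Set ℂ := (fun t : ℂ => q + t • v) ⁻¹' B with hV
  have hcont : Continuous fun t : ℂ => q + t • v := by fun_prop
  have hdiff : Differentiable ℂ fun t : ℂ => q + t • v := by fun_prop
  have hVo : IsOpen V := hB.preimage hcont
  have hVc : Convex ℝ V := by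
    intro s hs t ht a b ha hb hab
    have h1 := hBc hs ht ha hb hab
    show q + (a • s + b • t) • v ∈ B
    have h2 : q + (a • s + b • t) • v = a • (q + s • v) + b • (q + t • v) := by
      have h3 : q = (a + b) • q := by rw [hab, one_smul]
      conv_lhs => rw [h3]
      simp only [add_smul, smul_add, smul_assoc]
      abel
    rw [h2]; exact h1
  have h0 : (0 : ℂ) ∈ V := by simpa [hV] using hq
  have h1 : (1 : ℂ) ∈ V := by simpa [hV] using hqv
  have hgV : DifferentiableOn ℂ (fun t : ℂ => g (q + t • v)) V :=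
    hg.comp hdiff.differentiableOn fun t ht => ht
  have hgan : AnalyticOnNhd ℂ (fun t : ℂ => g (q + t • v)) V := hgV.analyticOnNhd hVo
  rcases (hgan 0 h0).eventually_eq_zero_or_eventually_ne_zero with hz | hne
  · exfalso
    have := hgan.eqOn_zero_of_preconnected_of_eventuallyEq_zero hVc.isPreconnected h0 hz h1
    simp only [one_smul, Pi.zero_apply] at this
    exact hgv this
  · refine (Complex.analyticAt_of_differentiable_on_punctured_nhds_of_continuousAt ?_ ?_).differentiableAt
    · have hV0 : ∀ᶠ t in 𝓝[≠] (0 : ℂ), t ∈ V := eventually_nhdsWithin_of_eventually_nhds (hVo.mem_nhds h0)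
      filter_upwards [hne, hV0] with t ht htV
      exact (hfg _ htV ht).comp t hdiff.differentiableAt
    · have hfc : ContinuousAt f (q + (0 : ℂ) • v) := hf.continuousAt (hB.mem_nhds h0)
      exact hfc.comp (f := fun t : ℂ => q + t • v) hcont.continuousAt

/-- **Riemann extension**: a continuous map, holomorphic where `g ≠ 0`, is holomorphic. -/
theorem differentiableAt_of_continuous {p : Cm 2} {g : Cm 2 → ℂ} {f : Cm 2 → F}
    (hg : ∀ᶠ z in 𝓝 p, DifferentiableAt ℂ g z) (hf : ∀ᶠ z in 𝓝 p, ContinuousAt f z)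
    (hfg : ∀ᶠ z in 𝓝 p, g z ≠ 0 → DifferentiableAt ℂ f z) (hne : ∃ᶠ z in 𝓝 p, g z ≠ 0) :
    DifferentiableAt ℂ f p := by
  obtain ⟨R, hR, hball⟩ := Metric.eventually_nhds_iff_ball.1 (hg.and (hf.and hfg))
  set B := ball p R with hBdef
  have hgB : DifferentiableOn ℂ g B := fun z hz => (hball z hz).1.differentiableWithinAt
  have hfB : ContinuousOn f B := fun z hz => (hball z hz).2.1.continuousWithinAt
  have hfgB : ∀ z ∈ B, g z ≠ 0 → DifferentiableAt ℂ f z := fun z hz => (hball z hz).2.2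
  by_cases hp0 : g p = 0
  swap
  · exact hfgB p (mem_ball_self hR) hp0
  obtain ⟨w, hw0, hwB⟩ := (hne.and_eventually (isOpen_ball.mem_nhds (mem_ball_self hR))).exists
  -- a neighbourhood of `w` where `g ≠ 0`
  have hgc : ContinuousAt g w := (hball w hwB).1.continuousAt
  have hWn : ∀ᶠ z in 𝓝 w, z ∈ B ∧ g z ≠ 0 := by
    have hw1 : ∀ᶠ z in 𝓝 w, z ∈ B := isOpen_ball.mem_nhds hwB
    exact hw1.and (hgc.eventually_ne hw0)
  set v1 : Cm 2 := w - p with hv1
  have hv1' : v1 ≠ 0 := by
    intro h0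
    have : w = p := by rwa [hv1, sub_eq_zero] at h0
    rw [this] at hw0
    exact hw0 hp0
  set u : Cm 2 := ![-(starRingEnd ℂ) (v1 1), (starRingEnd ℂ) (v1 0)] with hu
  have hcont1 : ContinuousAt (fun s : ℝ => w + (s : ℂ) • u) 0 := by fun_prop
  have hev : ∀ᶠ s : ℝ in 𝓝 0, (w + (s : ℂ) • u) ∈ B ∧ g (w + (s : ℂ) • u) ≠ 0 := by
    have hWn' : ∀ᶠ z in 𝓝 (w + ((0 : ℝ) : ℂ) • u), z ∈ B ∧ g z ≠ 0 := by simpa using hWn
    exact hcont1.eventually hWn'
  obtain ⟨s, hs0, hs⟩ : ∃ s : ℝ, s ≠ 0 ∧ ((w + (s : ℂ) • u) ∈ B ∧ g (w + (s : ℂ) • u) ≠ 0) := by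
    have h1 : ∀ᶠ s : ℝ in 𝓝[≠] 0, s ≠ 0 := self_mem_nhdsWithin
    exact (h1.and (eventually_nhdsWithin_of_eventually_nhds hev)).exists
  set v2 : Cm 2 := v1 + (s : ℂ) • u with hv2
  have hpv1 : p + v1 = w := by rw [hv1]; abel
  have hpv2 : p + v2 = w + (s : ℂ) • u := by rw [hv2, ← add_assoc, hpv1]
  -- the linear change of coordinates
  let M : Cm 2 →ₗ[ℂ] Cm 2 :=
    { toFun := fun x => x 0 • v1 + x 1 • v2
      map_add' := by intro x y; simp only [Pi.add_apply, add_smul]; abel
      map_smul' := by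
        intro c x
        simp only [Pi.smul_apply, smul_eq_mul, mul_smul, RingHom.id_apply, smul_add] }
  have hMapp : ∀ x, M x = x 0 • v1 + x 1 • v2 := fun x => rfl
  have hnorm : v1 0 * (starRingEnd ℂ) (v1 0) + v1 1 * (starRingEnd ℂ) (v1 1) ≠ 0 := by
    rw [Complex.mul_conj, Complex.mul_conj, ← Complex.ofReal_add, Complex.ofReal_ne_zero]
    intro h0
    have h1 := Complex.normSq_nonneg (v1 0)
    have h2 := Complex.normSq_nonneg (v1 1)
    have h3 : Complex.normSq (v1 0) = 0 := by linarith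
    have h4 : Complex.normSq (v1 1) = 0 := by linarith
    apply hv1'
    ext i
    fin_cases i
    · exact Complex.normSq_eq_zero.1 h3
    · exact Complex.normSq_eq_zero.1 h4
  have hinj : Function.Injective M := by
    rw [← LinearMap.ker_eq_bot, LinearMap.ker_eq_bot']
    intro x hx
    rw [hMapp] at hx
    have e0 := congrFun hx 0
    have e1 := congrFun hx 1
    simp only [hv2, hu, Pi.add_apply, Pi.smul_apply, smul_eq_mul, Matrix.cons_val_zero,
      Matrix.cons_val_one, Pi.zero_apply, Matrix.cons_val_fin_one] at e0 e1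
    have hs' : (s : ℂ) ≠ 0 := by exact_mod_cast hs0
    have hx1 : x 1 = 0 := by
      have h1 : x 1 * ((s : ℂ) * (v1 0 * (starRingEnd ℂ) (v1 0) + v1 1 * (starRingEnd ℂ) (v1 1))) = 0 := by
        linear_combination (v1 0) * e1 - (v1 1) * e0
      rcases mul_eq_zero.1 h1 with h2 | h2
      · exact h2
      · rcases mul_eq_zero.1 h2 with h3 | h3
        · exact absurd h3 hs'
        · exact absurd h3 hnorm
    have hx0 : x 0 = 0 := by
      rw [hx1] at e0 e1
      have h1 : x 0 * (v1 0 * (starRingEnd ℂ) (v1 0) + v1 1 * (starRingEnd ℂ) (v1 1)) = 0 := by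
        linear_combination ((starRingEnd ℂ) (v1 0)) * e0 + ((starRingEnd ℂ) (v1 1)) * e1
      exact (mul_eq_zero.1 h1).resolve_right hnorm
    ext i
    fin_cases i
    · exact hx0
    · exact hx1
  let Me : Cm 2 ≃L[ℂ] Cm 2 := (LinearEquiv.ofInjectiveEndo M hinj).toContinuousLinearEquiv
  have hMe : ∀ x, Me x = x 0 • v1 + x 1 • v2 := fun x => rfl
  -- good points
  set Q : Set (Cm 2) := {q | q ∈ B ∧ (q + v1 ∈ B ∧ g (q + v1) ≠ 0) ∧ (q + v2 ∈ B ∧ g (q + v2) ≠ 0)}
    with hQ
  have hopen : IsOpen {z | z ∈ B ∧ g z ≠ 0} := by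
    have := hgB.continuousOn.isOpen_inter_preimage isOpen_ball (isOpen_ne (x := (0 : ℂ)))
    exact this
  have hQo : IsOpen Q := by
    refine isOpen_ball.inter ((hopen.preimage (continuous_add_const v1)).inter
      (hopen.preimage (continuous_add_const v2)))
  have hpQ : p ∈ Q := by
    refine ⟨mem_ball_self hR, ?_, ?_⟩
    · rw [hpv1]; exact ⟨hwB, hw0⟩
    · rw [hpv2]; exact hs
  have hline : ∀ q ∈ Q, ∀ i : Fin 2, DifferentiableAt ℂ (fun t : ℂ => f (q + t • ![v1, v2] i)) 0 := by
    rintro q ⟨hqB, ⟨h1, h1'⟩, ⟨h2, h2'⟩⟩ i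
    fin_cases i
    · exact differentiableAt_line isOpen_ball (convex_ball p R) hgB hfB hfgB hqB h1 h1'
    · exact differentiableAt_line isOpen_ball (convex_ball p R) hgB hfB hfgB hqB h2 h2'
  have hupd : ∀ (x : Cm 2) (i : Fin 2) (τ : ℂ), Me (Function.update x i τ)
      = Me x + (τ - x i) • ![v1, v2] i := by
    intro x i τ
    rw [hMe, hMe]
    fin_cases i
    · simp [sub_smul]; abel
    · simp [sub_smul]
  have hosg : DifferentiableOn ℂ (fun x => f (Me x)) (Me ⁻¹' Q) := by
    refine Vale.Agent.P272.GEO.osgood (hQo.preimage Me.continuous) ?_ ?_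
    · exact hfB.comp Me.continuous.continuousOn fun x hx => hx.1
    · intro x hx i
      have h1 := hline (Me x) hx i
      have h2 : DifferentiableAt ℂ (fun t : ℂ => f (Me x + t • ![v1, v2] i)) (x i - x i) := by
        rw [sub_self]; exact h1
      have h3 : DifferentiableAt ℂ (fun τ : ℂ => τ - x i) (x i) := by fun_prop
      have h4 := DifferentiableAt.comp (x i) (g := fun t : ℂ => f (Me x + t • ![v1, v2] i))
        (f := fun τ : ℂ => τ - x i) h2 h3
      refine h4.congr_of_eventuallyEq ?_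
      filter_upwards with τ
      rw [hupd]; rfl
  have hfin : DifferentiableAt ℂ (fun x => f (Me x)) (Me.symm p) := by
    refine hosg.differentiableAt ((hQo.preimage Me.continuous).mem_nhds ?_)
    simpa using hpQ
  have h5 := DifferentiableAt.comp p hfin Me.symm.differentiableAt
  refine h5.congr_of_eventuallyEq ?_
  filter_upwards with z
  simp

end Local

section Manifold

variable {Y : Type*} [TopologicalSpace Y] [ChartedSpace (Cm 2) Y] [IsManifold 𝓘(ℂ, Cm 2) 1 Y]

/-- Riemann extension on a surface. -/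
theorem mdifferentiableAt_of_continuous {y : Y} {g : Y → ℂ} {f : Y → Cm 2}
    (hg : ∀ᶠ z in 𝓝 y, MDifferentiableAt 𝓘(ℂ, Cm 2) 𝓘(ℂ) g z) (hf : ∀ᶠ z in 𝓝 y, ContinuousAt f z)
    (hfg : ∀ᶠ z in 𝓝 y, g z ≠ 0 → MDifferentiableAt 𝓘(ℂ, Cm 2) 𝓘(ℂ, Cm 2) f z)
    (hne : ∃ᶠ z in 𝓝 y, g z ≠ 0) : MDifferentiableAt 𝓘(ℂ, Cm 2) 𝓘(ℂ, Cm 2) f y := by
  set e := chartAt (Cm 2) y with he
  have hy : y ∈ e.source := mem_chart_source _ y
  have hey : e y ∈ e.target := e.map_source hy
  have hmd : e.MDifferentiable 𝓘(ℂ, Cm 2) 𝓘(ℂ, Cm 2) := mdifferentiable_chart y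
  have hsy : e.symm (e y) = y := e.left_inv hy
  have htend : Tendsto e.symm (𝓝 (e y)) (𝓝 y) := by
    have := e.continuousAt_symm hey
    rwa [ContinuousAt, hsy] at this
  have htgt : ∀ᶠ z in 𝓝 (e y), z ∈ e.target := e.open_target.mem_nhds hey
  have key : DifferentiableAt ℂ (fun z => f (e.symm z)) (e y) := by
    refine differentiableAt_of_continuous (g := fun z => g (e.symm z)) ?_ ?_ ?_ ?_
    · filter_upwards [htend.eventually hg, htgt] with z hz hzt
      exact (MDifferentiableAt.comp z hz (hmd.mdifferentiableAt_symm hzt)).differentiableAt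
    · filter_upwards [htend.eventually hf, htgt] with z hz hzt
      exact ContinuousAt.comp (f := e.symm) hz (e.continuousAt_symm hzt)
    · filter_upwards [htend.eventually hfg, htgt] with z hz hzt h0
      exact (MDifferentiableAt.comp z (hz h0) (hmd.mdifferentiableAt_symm hzt)).differentiableAt
    · have hmap : map e.symm (𝓝 (e y)) = 𝓝 y := by
        have := e.symm.map_nhds_eq (x := e y) (by simpa using hey)
        rwa [hsy] at this
      rw [← hmap] at hne
      exact hne
  have h1 : MDifferentiableAt 𝓘(ℂ, Cm 2) 𝓘(ℂ, Cm 2) (fun x => f (e.symm (e x))) y :=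
    MDifferentiableAt.comp y (g := fun z => f (e.symm z)) key.mdifferentiableAt (hmd.mdifferentiableAt hy)
  refine h1.congr_of_eventuallyEq ?_
  filter_upwards [e.open_source.mem_nhds hy] with x hx
  rw [e.left_inv hx]

end Manifold

end Vale.Agent.P267.H615
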