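import Vale.Agent.P267.H615.Shell
import Vale.Agent.P267.H615.Ext
import Mathlib.Analysis.Calculus.FDeriv.Equiv

/-!
# EG-KATO: from a contracting germ on the cyclic covering to a global spherical shell

`hasGSS_of_germ` is the form to be used: the coordinates `Pi` have to be continuous on `Ω` and
holomorphic where they do not vanish, and their zero set is contained locally in the zero set of a
holomorphic function.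
-/

open Set Filter Metric
open scoped Topology Manifold ContDiff
open Vale.Agent.P272.K (Cm)

noncomputable section

namespace Vale.Agent.P267.H615

section Inv

variable {Y : Type*} [TopologicalSpace Y] [ChartedSpace (Cm 2) Y] [IsManifold 𝓘(ℂ, Cm 2) 1 Y]

/-- A continuous local inverse of a holomorphic map with injective differential is holomorphic. -/
theorem mdifferentiableAt_of_inverse {Θ : Cm 2 → Y} {Pi : Y → Cm 2} {y : Y}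
    (hΘ : MDifferentiableAt 𝓘(ℂ, Cm 2) 𝓘(ℂ, Cm 2) Θ (Pi y))
    (hinj : Function.Injective (mfderiv 𝓘(ℂ, Cm 2) 𝓘(ℂ, Cm 2) Θ (Pi y)))
    (hc : ContinuousAt Pi y) (h : ∀ᶠ z in 𝓝 y, Θ (Pi z) = z) :
    MDifferentiableAt 𝓘(ℂ, Cm 2) 𝓘(ℂ, Cm 2) Pi y := by
  have hy0 : Θ (Pi y) = y := h.self_of_nhds
  set e := chartAt (Cm 2) y with he
  have hy : y ∈ e.source := mem_chart_source _ y
  have hey : e y ∈ e.target := e.map_source hy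
  have hmd : e.MDifferentiable 𝓘(ℂ, Cm 2) 𝓘(ℂ, Cm 2) := mdifferentiable_chart y
  have hsy : e.symm (e y) = y := e.left_inv hy
  have htend : Tendsto e.symm (𝓝 (e y)) (𝓝 y) := by
    have := e.continuousAt_symm hey
    rwa [ContinuousAt, hsy] at this
  -- the differential in the chart
  have hde : MDifferentiableAt 𝓘(ℂ, Cm 2) 𝓘(ℂ, Cm 2) e (Θ (Pi y)) := by
    rw [hy0]; exact hmd.mdifferentiableAt hy
  have hcomp : MDifferentiableAt 𝓘(ℂ, Cm 2) 𝓘(ℂ, Cm 2) (fun x => e (Θ x)) (Pi y) := hde.comp (Pi y) hΘ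
  have hd : DifferentiableAt ℂ (fun x => e (Θ x)) (Pi y) := hcomp.differentiableAt
  have hfd : Function.Injective (fderiv ℂ (fun x => e (Θ x)) (Pi y)) := by
    have h1 : mfderiv 𝓘(ℂ, Cm 2) 𝓘(ℂ, Cm 2) (fun x => e (Θ x)) (Pi y)
        = (mfderiv 𝓘(ℂ, Cm 2) 𝓘(ℂ, Cm 2) e (Θ (Pi y))).comp
          (mfderiv 𝓘(ℂ, Cm 2) 𝓘(ℂ, Cm 2) Θ (Pi y)) := mfderiv_comp (Pi y) hde hΘ
    have h2 : Function.Injective (mfderiv 𝓘(ℂ, Cm 2) 𝓘(ℂ, Cm 2) e (Θ (Pi y))) := by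
      rw [hy0]; exact hmd.mfderiv_injective hy
    rw [← mfderiv_eq_fderiv, h1]
    exact h2.comp hinj
  let f' : Cm 2 ≃L[ℂ] Cm 2 :=
    (LinearEquiv.ofInjectiveEndo (fderiv ℂ (fun x => e (Θ x)) (Pi y) : Cm 2 →ₗ[ℂ] Cm 2)
      hfd).toContinuousLinearEquiv
  have hf' : HasFDerivAt (fun x => e (Θ x)) (f' : Cm 2 →L[ℂ] Cm 2) (Pi (e.symm (e y))) := by
    rw [hsy]
    have h1 := hd.hasFDerivAt
    have h2 : (f' : Cm 2 →L[ℂ] Cm 2) = fderiv ℂ (fun x => e (Θ x)) (Pi y) := by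
      ext x : 1; rfl
    rwa [h2]
  have hgc : ContinuousAt (fun z => Pi (e.symm z)) (e y) := by
    have h1 : ContinuousAt Pi (e.symm (e y)) := by rwa [hsy]
    exact ContinuousAt.comp (f := e.symm) h1 (e.continuousAt_symm hey)
  have hfg : ∀ᶠ z in 𝓝 (e y), e (Θ (Pi (e.symm z))) = z := by
    have htgt : ∀ᶠ z in 𝓝 (e y), z ∈ e.target := e.open_target.mem_nhds hey
    filter_upwards [htend.eventually h, htgt] with z hz hzt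
    rw [hz, e.right_inv hzt]
  have key : DifferentiableAt ℂ (fun z => Pi (e.symm z)) (e y) :=
    (HasFDerivAt.of_local_left_inverse hgc hf' hfg).differentiableAt
  have h1 : MDifferentiableAt 𝓘(ℂ, Cm 2) 𝓘(ℂ, Cm 2) (fun x => Pi (e.symm (e x))) y :=
    MDifferentiableAt.comp y (g := fun z => Pi (e.symm z)) key.mdifferentiableAt
      (hmd.mdifferentiableAt hy)
  refine h1.congr_of_eventuallyEq ?_
  filter_upwards [e.open_source.mem_nhds hy] with x hx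
  rw [e.left_inv hx]

end Inv

/-- **A surface with a contracting germ on its infinite cyclic covering contains a global spherical
shell.** The germ is contracting in the following sense: `Pi (φ y) → 0` for `Pi y → 0`, and a power
of `φ` maps `{|Pi| < r}` into `{|Pi| < r / 2}`. -/
theorem hasGSS_of_contracting {X Y : Type*} [TopologicalSpace X] [ChartedSpace (Cm 2) X]
    [TopologicalSpace Y] [ChartedSpace (Cm 2) Y] [IsManifold 𝓘(ℂ, Cm 2) 1 Y]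
    -- the covering
    (p : Y → X) (p_surj : Function.Surjective p) (p_holo : MDifferentiable 𝓘(ℂ, Cm 2) 𝓘(ℂ, Cm 2) p)
    (p_sec : ∀ y, ∃ s : X → Y, s (p y) = y ∧ (∀ᶠ x in 𝓝 (p y), p (s x) = x) ∧
      MDifferentiableAt 𝓘(ℂ, Cm 2) 𝓘(ℂ, Cm 2) s (p y))
    (φ : Y ≃ₜ Y) (φ_holo : MDifferentiable 𝓘(ℂ, Cm 2) 𝓘(ℂ, Cm 2) φ)
    (p_eq : ∀ y y', p y = p y' ↔ ∃ k : ℕ, φ^[k] y = y' ∨ φ^[k] y' = y)
    -- the coordinates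
    (Ω : Set Y) (Ω_open : IsOpen Ω) (Pi : Y → Cm 2) (Θ : Cm 2 → Y) (ε : ℝ) (ε_pos : 0 < ε)
    (Pi_cont : ContinuousOn Pi Ω)
    (Pi_holo : ∀ y ∈ Ω, Pi y ≠ 0 → ‖Pi y‖ < ε → MDifferentiableAt 𝓘(ℂ, Cm 2) 𝓘(ℂ, Cm 2) Pi y)
    (Pi_zero : ∀ y ∈ Ω, Pi y = 0 → ∃ g : Y → ℂ,
      (∀ᶠ z in 𝓝 y, MDifferentiableAt 𝓘(ℂ, Cm 2) 𝓘(ℂ) g z) ∧ (∃ᶠ z in 𝓝 y, g z ≠ 0) ∧
      ∀ᶠ z in 𝓝 y, Pi z = 0 → g z = 0)
    (Θ_holo : ∀ x, x ≠ 0 → ‖x‖ < ε → MDifferentiableAt 𝓘(ℂ, Cm 2) 𝓘(ℂ, Cm 2) Θ x)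
    (Θ_mem : ∀ x, x ≠ 0 → ‖x‖ < ε → Θ x ∈ Ω) (Pi_Θ : ∀ x, x ≠ 0 → ‖x‖ < ε → Pi (Θ x) = x)
    (Θ_Pi : ∀ y ∈ Ω, Pi y ≠ 0 → ‖Pi y‖ < ε → Θ (Pi y) = y)
    (closed : ∀ r < ε, IsClosed {y | y ∈ Ω ∧ ‖Pi y‖ ≤ r})
    -- the contraction
    (small : ∀ η : ℝ, 0 < η → ∃ δ : ℝ, 0 < δ ∧ ∀ y ∈ Ω, ‖Pi y‖ < δ → φ y ∈ Ω ∧ ‖Pi (φ y)‖ < η)
    (r : ℝ) (r_pos : 0 < r) (K : ℕ) (pow_mem : ∀ y ∈ Ω, ‖Pi y‖ < r → φ^[K] y ∈ Ω)
    (pow_lt : ∀ y ∈ Ω, ‖Pi y‖ < r → ‖Pi (φ^[K] y)‖ < r / 2) (r_le : r ≤ ε)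
    (absorb : ∀ r : ℝ, 0 < r → ∀ y, ∃ k : ℕ, φ^[k] y ∈ Ω ∧ ‖Pi (φ^[k] y)‖ < r)
    (exit : ∀ y, ∃ k : ℕ, φ.symm^[k] y ∉ Ω) : HasGSS X := by
  have hne : ∀ y ∈ Ω, ∃ᶠ z in 𝓝 y, Pi z ≠ 0 := by
    intro y hy
    by_cases h0 : Pi y = 0
    · obtain ⟨g, -, hg2, hg3⟩ := Pi_zero y hy h0
      refine (hg2.and_eventually hg3).mono ?_
      rintro z ⟨h1, h2⟩ h3
      exact h1 (h2 h3)
    · exact ((Pi_cont.continuousAt (Ω_open.mem_nhds hy)).eventually_ne h0).frequently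
  -- restrict to the open ball
  set Ω' : Set Y := {y | y ∈ Ω ∧ ‖Pi y‖ < ε} with hΩ'
  have hΩ'o : IsOpen Ω' := Pi_cont.norm.isOpen_inter_preimage Ω_open isOpen_Iio
  have hholo : ∀ y ∈ Ω', MDifferentiableAt 𝓘(ℂ, Cm 2) 𝓘(ℂ, Cm 2) Pi y := by
    rintro y ⟨hy, hyε⟩
    by_cases h0 : Pi y = 0
    · obtain ⟨g, hg1, hg2, hg3⟩ := Pi_zero y hy h0
      refine mdifferentiableAt_of_continuous hg1 ?_ ?_ hg2
      · filter_upwards [Ω_open.mem_nhds hy] with z hz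
        exact Pi_cont.continuousAt (Ω_open.mem_nhds hz)
      · filter_upwards [hΩ'o.mem_nhds ⟨hy, hyε⟩, hg3] with z hz hgz hne
        exact Pi_holo z hz.1 (fun h => hne (hgz h)) hz.2
    · exact Pi_holo y hy h0 hyε
  refine Germ.hasGSS (X := X) (Y := Y)
    { p := p, φ := φ, Ω := Ω', Pi := Pi, Θ := Θ, ε := ε, r := r, K := K
      ε_pos := ε_pos
      r_pos := r_pos
      r_le := r_le
      p_surj := p_surj
      p_holo := p_holo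
      p_sec := p_sec
      p_eq := p_eq
      φ_holo := φ_holo
      Ω_open := hΩ'o
      Pi_holo := hholo
      Θ_holo := Θ_holo
      Θ_mem := fun x h0 hx => ⟨Θ_mem x h0 hx, by rw [Pi_Θ x h0 hx]; exact hx⟩
      Pi_Θ := Pi_Θ
      Θ_Pi := fun y hy h0 h => Θ_Pi y hy.1 h0 h
      isClosed := ?_
      frequently_ne := fun y hy => hne y hy.1
      small := ?_
      pow_mem := fun y hy hlt => ⟨pow_mem y hy.1 hlt, (pow_lt y hy.1 hlt).trans_le (by linarith)⟩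
      pow_lt := fun y hy hlt => pow_lt y hy.1 hlt
      absorb := ?_
      exit := ?_ }
  · intro r hr
    convert closed r hr using 1
    ext y
    constructor
    · rintro ⟨⟨h1, -⟩, h2⟩; exact ⟨h1, h2⟩
    · rintro ⟨h1, h2⟩; exact ⟨⟨h1, h2.trans_lt hr⟩, h2⟩
  · intro η hη
    obtain ⟨δ, hδ, h⟩ := small (min η ε) (lt_min hη ε_pos)
    refine ⟨δ, hδ, fun y hy hlt => ?_⟩
    obtain ⟨h1, h2⟩ := h y hy.1 hlt
    exact ⟨⟨h1, h2.trans_le (min_le_right _ _)⟩, h2.trans_le (min_le_left _ _)⟩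
  · intro r hr y
    obtain ⟨k, h1, h2⟩ := absorb (min r ε) (lt_min hr ε_pos) y
    exact ⟨k, ⟨h1, h2.trans_le (min_le_right _ _)⟩, h2.trans_le (min_le_left _ _)⟩
  · intro y
    obtain ⟨k, hk⟩ := exit y
    exact ⟨k, fun h => hk h.1⟩

/-- The special case of a germ with nilpotent differential: `|Pi (φ y)| ≤ C |Pi y|` and
`|Pi (φ^[K] y)| ≤ C |Pi y|²`. -/
theorem hasGSS_of_germ {X Y : Type*} [TopologicalSpace X] [ChartedSpace (Cm 2) X]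
    [TopologicalSpace Y] [ChartedSpace (Cm 2) Y] [IsManifold 𝓘(ℂ, Cm 2) 1 Y]
    -- the covering
    (p : Y → X) (p_surj : Function.Surjective p) (p_holo : MDifferentiable 𝓘(ℂ, Cm 2) 𝓘(ℂ, Cm 2) p)
    (p_sec : ∀ y, ∃ s : X → Y, s (p y) = y ∧ (∀ᶠ x in 𝓝 (p y), p (s x) = x) ∧
      MDifferentiableAt 𝓘(ℂ, Cm 2) 𝓘(ℂ, Cm 2) s (p y))
    (φ : Y ≃ₜ Y) (φ_holo : MDifferentiable 𝓘(ℂ, Cm 2) 𝓘(ℂ, Cm 2) φ)
    (p_eq : ∀ y y', p y = p y' ↔ ∃ k : ℕ, φ^[k] y = y' ∨ φ^[k] y' = y)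
    -- the coordinates
    (Ω : Set Y) (Ω_open : IsOpen Ω) (Pi : Y → Cm 2) (Θ : Cm 2 → Y) (ε : ℝ) (ε_pos : 0 < ε)
    (Pi_cont : ContinuousOn Pi Ω)
    (Pi_holo : ∀ y ∈ Ω, Pi y ≠ 0 → ‖Pi y‖ < ε → MDifferentiableAt 𝓘(ℂ, Cm 2) 𝓘(ℂ, Cm 2) Pi y)
    (Pi_zero : ∀ y ∈ Ω, Pi y = 0 → ∃ g : Y → ℂ,
      (∀ᶠ z in 𝓝 y, MDifferentiableAt 𝓘(ℂ, Cm 2) 𝓘(ℂ) g z) ∧ (∃ᶠ z in 𝓝 y, g z ≠ 0) ∧
      ∀ᶠ z in 𝓝 y, Pi z = 0 → g z = 0)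
    (Θ_holo : ∀ x, x ≠ 0 → ‖x‖ < ε → MDifferentiableAt 𝓘(ℂ, Cm 2) 𝓘(ℂ, Cm 2) Θ x)
    (Θ_mem : ∀ x, x ≠ 0 → ‖x‖ < ε → Θ x ∈ Ω) (Pi_Θ : ∀ x, x ≠ 0 → ‖x‖ < ε → Pi (Θ x) = x)
    (Θ_Pi : ∀ y ∈ Ω, Pi y ≠ 0 → ‖Pi y‖ < ε → Θ (Pi y) = y)
    (closed : ∀ r < ε, IsClosed {y | y ∈ Ω ∧ ‖Pi y‖ ≤ r})
    -- the contraction
    (ε₁ : ℝ) (ε₁_pos : 0 < ε₁) (C : ℝ) (K : ℕ)
    (lin : ∀ y ∈ Ω, ‖Pi y‖ < ε₁ → φ y ∈ Ω ∧ ‖Pi (φ y)‖ ≤ C * ‖Pi y‖)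
    (sq : ∀ y ∈ Ω, ‖Pi y‖ < ε₁ → ‖Pi (φ^[K] y)‖ ≤ C * ‖Pi y‖ ^ 2)
    (absorb : ∀ r : ℝ, 0 < r → ∀ y, ∃ k : ℕ, φ^[k] y ∈ Ω ∧ ‖Pi (φ^[k] y)‖ < r)
    (exit : ∀ y, ∃ k : ℕ, φ.symm^[k] y ∉ Ω) : HasGSS X := by
  have hsmall : ∀ η : ℝ, 0 < η → ∃ δ : ℝ, 0 < δ ∧ ∀ y ∈ Ω, ‖Pi y‖ < δ →
      φ y ∈ Ω ∧ ‖Pi (φ y)‖ < η := by
    intro η hη
    refine ⟨min ε₁ (η / (|C| + 1)), lt_min ε₁_pos (by positivity), fun y hy hlt => ?_⟩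
    obtain ⟨h1, h2⟩ := lin y hy (hlt.trans_le (min_le_left _ _))
    refine ⟨h1, ?_⟩
    have h3 := hlt.trans_le (min_le_right _ _)
    rw [lt_div_iff₀ (by positivity)] at h3
    have := norm_nonneg (Pi y)
    have := le_abs_self C
    nlinarith
  have hiter : ∀ k : ℕ, ∃ δ : ℝ, 0 < δ ∧ ∀ y ∈ Ω, ‖Pi y‖ < δ → φ^[k] y ∈ Ω := by
    intro k
    induction k with
    | zero => exact ⟨1, one_pos, fun y hy _ => hy⟩
    | succ k ih =>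
      obtain ⟨δ, hδ, h⟩ := ih
      obtain ⟨δ', hδ', h'⟩ := hsmall δ hδ
      refine ⟨δ', hδ', fun y hy hlt => ?_⟩
      rw [Function.iterate_succ_apply]
      obtain ⟨h1, h2⟩ := h' y hy hlt
      exact h _ h1 h2
  obtain ⟨δ, hδ, hmem⟩ := hiter K
  set r : ℝ := min (min ε ε₁) (min δ (1 / (4 * (|C| + 1)))) with hr
  have hr0 : 0 < r := lt_min (lt_min ε_pos ε₁_pos) (lt_min hδ (by positivity))
  refine hasGSS_of_contracting p p_surj p_holo p_sec φ φ_holo p_eq Ω Ω_open Pi Θ ε ε_pos Pi_cont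
    Pi_holo Pi_zero Θ_holo Θ_mem Pi_Θ Θ_Pi closed hsmall r hr0 K ?_ ?_ ?_ absorb exit
  · intro y hy hlt
    exact hmem y hy (hlt.trans_le ((min_le_right _ _).trans (min_le_left _ _)))
  · intro y hy hlt
    have h1 := sq y hy (hlt.trans_le ((min_le_left _ _).trans (min_le_right _ _)))
    have h2 : r ≤ 1 / (4 * (|C| + 1)) := (min_le_right _ _).trans (min_le_right _ _)
    rw [le_div_iff₀ (by positivity)] at h2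
    have h3 := norm_nonneg (Pi y)
    have h4 := le_abs_self C
    have h5 := abs_nonneg C
    have h6 : C * ‖Pi y‖ ^ 2 ≤ |C| * r ^ 2 := by
      have h7 : ‖Pi y‖ ^ 2 ≤ r ^ 2 := pow_le_pow_left₀ h3 hlt.le 2
      calc C * ‖Pi y‖ ^ 2 ≤ |C| * ‖Pi y‖ ^ 2 := mul_le_mul_of_nonneg_right h4 (by positivity)
        _ ≤ |C| * r ^ 2 := mul_le_mul_of_nonneg_left h7 h5
    have h8 : |C| * r ^ 2 ≤ 1 / 4 * r := by nlinarith
    linarith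
  · exact (min_le_left _ _).trans (min_le_left _ _)

end Vale.Agent.P267.H615
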