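import Vale.Agent.P267.H615.Adapt2
import Vale.Agent.P267.Statement
import Vale.Agent.P272.GEO.Osgood
import Mathlib.Analysis.Complex.RemovableSingularity
import Mathlib.Analysis.Complex.Schwarz
import Mathlib.Analysis.Calculus.Deriv.Pi
import Mathlib.Geometry.Manifold.MFDeriv.SpecificFunctions

/-!
# From a contracting germ on the cyclic covering to a global spherical shell, I

`Germ X Y` is the situation at the end of the proof: `p : Y → X` is an infinite cyclic covering,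
`φ` its generator, `Pi` holomorphic coordinates on an open set `Ω` (a neighbourhood of an end of
`Y`), which map `Ω` minus the compact curve `{Pi = 0}` onto a punctured ball.
Here: the germ `F = Pi ∘ φ ∘ Pi⁻¹` is holomorphic at `0`, a power of its differential there halves
the norm, and it contracts the balls of a Euclidean norm.
-/

open Set Filter Asymptotics Metric
open scoped Topology Manifold ContDiff
open Vale.Agent.P272.K (Cm)

noncomputable section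

namespace Vale.Agent.P267.H615

/-- A map which is continuous on an open set of `ℂ²` and holomorphic off one point is
holomorphic. -/
theorem differentiableOn_of_punctured {r : ℝ} {f : Cm 2 → Cm 2}
    (hc : ContinuousAt f 0)
    (hd : ∀ x, x ≠ 0 → ‖x‖ < r → DifferentiableAt ℂ f x) : DifferentiableOn ℂ f (ball 0 r) := by
  refine Vale.Agent.P272.GEO.osgood isOpen_ball ?_ ?_
  · intro x hx
    refine ContinuousAt.continuousWithinAt ?_
    by_cases h0 : x = 0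
    · rw [h0]; exact hc
    · exact (hd x h0 (by simpa using hx)).continuousAt
  · intro x hx i
    by_cases h0 : x = 0
    · have hcont : Continuous fun τ : ℂ => Function.update x i τ :=
        continuous_const.update i continuous_id
      have hupd : Function.update x i (x i) = x := Function.update_eq_self i x
      have hnh : ∀ᶠ τ in 𝓝 (x i), ‖Function.update x i τ‖ < r := by
        have : ∀ᶠ z in 𝓝 (Function.update x i (x i)), ‖z‖ < r := by
          rw [hupd]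
          filter_upwards [isOpen_ball.mem_nhds hx] with z hz
          simpa using hz
        exact hcont.continuousAt.eventually this
      refine (Complex.analyticAt_of_differentiable_on_punctured_nhds_of_continuousAt ?_ ?_).differentiableAt
      · rw [eventually_nhdsWithin_iff]
        filter_upwards [hnh] with τ hτ hne
        have hne' : Function.update x i τ ≠ 0 := by
          intro h
          have h3 := congrFun h i
          rw [Function.update_self] at h3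
          apply hne
          rw [mem_singleton_iff, h3, h0]
        exact (hd _ hne' hτ).comp τ (hasDerivAt_update x i τ).differentiableAt
      · have hc' : ContinuousAt f (Function.update x i (x i)) := by
          rw [hupd, h0]; exact hc
        exact hc'.comp hcont.continuousAt
    · have hd' : DifferentiableAt ℂ f (Function.update x i (x i)) := by
        rw [Function.update_eq_self]
        exact hd x h0 (by simpa using hx)
      exact hd'.comp (x i) (hasDerivAt_update x i (x i)).differentiableAt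

/-- A contracting germ on an infinite cyclic covering `p : Y → X`. -/
structure Germ (X Y : Type*) [TopologicalSpace X] [ChartedSpace (Cm 2) X]
    [TopologicalSpace Y] [ChartedSpace (Cm 2) Y] where
  /-- the covering map -/
  p : Y → X
  /-- the generator of the covering group (shift towards the end contained in `Ω`) -/
  φ : Y ≃ₜ Y
  /-- a neighbourhood of the end -/
  Ω : Set Y
  /-- coordinates on `Ω`, vanishing on a compact curve -/
  Pi : Y → Cm 2
  /-- inverse of the coordinates -/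
  Θ : Cm 2 → Y
  ε : ℝ
  r : ℝ
  K : ℕ
  ε_pos : 0 < ε
  r_pos : 0 < r
  r_le : r ≤ ε
  p_surj : Function.Surjective p
  p_holo : MDifferentiable 𝓘(ℂ, Cm 2) 𝓘(ℂ, Cm 2) p
  p_sec : ∀ y, ∃ s : X → Y, s (p y) = y ∧ (∀ᶠ x in 𝓝 (p y), p (s x) = x) ∧
    MDifferentiableAt 𝓘(ℂ, Cm 2) 𝓘(ℂ, Cm 2) s (p y)
  p_eq : ∀ y y', p y = p y' ↔ ∃ k : ℕ, φ^[k] y = y' ∨ φ^[k] y' = y
  φ_holo : MDifferentiable 𝓘(ℂ, Cm 2) 𝓘(ℂ, Cm 2) φ
  Ω_open : IsOpen Ω
  Pi_holo : ∀ y ∈ Ω, MDifferentiableAt 𝓘(ℂ, Cm 2) 𝓘(ℂ, Cm 2) Pi y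
  Θ_holo : ∀ x, x ≠ 0 → ‖x‖ < ε → MDifferentiableAt 𝓘(ℂ, Cm 2) 𝓘(ℂ, Cm 2) Θ x
  Θ_mem : ∀ x, x ≠ 0 → ‖x‖ < ε → Θ x ∈ Ω
  Pi_Θ : ∀ x, x ≠ 0 → ‖x‖ < ε → Pi (Θ x) = x
  Θ_Pi : ∀ y ∈ Ω, Pi y ≠ 0 → ‖Pi y‖ < ε → Θ (Pi y) = y
  isClosed : ∀ r < ε, IsClosed {y | y ∈ Ω ∧ ‖Pi y‖ ≤ r}
  frequently_ne : ∀ y ∈ Ω, ∃ᶠ z in 𝓝 y, Pi z ≠ 0
  small : ∀ η : ℝ, 0 < η → ∃ δ : ℝ, 0 < δ ∧ ∀ y ∈ Ω, ‖Pi y‖ < δ → φ y ∈ Ω ∧ ‖Pi (φ y)‖ < η
  pow_mem : ∀ y ∈ Ω, ‖Pi y‖ < r → φ^[K] y ∈ Ω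
  pow_lt : ∀ y ∈ Ω, ‖Pi y‖ < r → ‖Pi (φ^[K] y)‖ < r / 2
  absorb : ∀ r : ℝ, 0 < r → ∀ y, ∃ k : ℕ, φ^[k] y ∈ Ω ∧ ‖Pi (φ^[k] y)‖ < r
  exit : ∀ y, ∃ k : ℕ, φ.symm^[k] y ∉ Ω

variable {X Y : Type*} [TopologicalSpace X] [ChartedSpace (Cm 2) X]
    [TopologicalSpace Y] [ChartedSpace (Cm 2) Y] (D : Germ X Y)

namespace Germ

/-- The germ in the coordinates `Pi`. -/
def F (x : Cm 2) : Cm 2 := if x = 0 then 0 else D.Pi (D.φ (D.Θ x))

@[simp] theorem F_zero : D.F 0 = 0 := by simp [F]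

theorem F_of_ne {x : Cm 2} (h : x ≠ 0) : D.F x = D.Pi (D.φ (D.Θ x)) := by simp [F, h]

/-- A common radius. -/
def ε₀ : ℝ := min D.ε (D.small 1 one_pos).choose

theorem ε₀_pos : 0 < D.ε₀ := lt_min D.ε_pos (D.small 1 one_pos).choose_spec.1

theorem ε₀_le : D.ε₀ ≤ D.ε := min_le_left _ _

theorem lin_mem {y : Y} (hy : y ∈ D.Ω) (h : ‖D.Pi y‖ < D.ε₀) : D.φ y ∈ D.Ω :=
  ((D.small 1 one_pos).choose_spec.2 y hy (h.trans_le (min_le_right _ _))).1

theorem F_Pi {y : Y} (hy : y ∈ D.Ω) (h : ‖D.Pi y‖ < D.ε₀) : D.F (D.Pi y) = D.Pi (D.φ y) := by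
  by_cases h0 : D.Pi y = 0
  · have h1 : ∀ η : ℝ, 0 < η → ‖D.Pi (D.φ y)‖ < η := by
      intro η hη
      obtain ⟨δ, hδ, h2⟩ := D.small η hη
      exact (h2 y hy (by rw [h0, norm_zero]; exact hδ)).2
    have h2 : ‖D.Pi (D.φ y)‖ ≤ 0 := le_of_forall_pos_le_add fun η hη => by
      rw [zero_add]; exact (h1 η hη).le
    rw [h0, F_zero]
    exact (norm_le_zero_iff.1 h2).symm
  · rw [D.F_of_ne h0, D.Θ_Pi y hy h0 (h.trans_le D.ε₀_le)]

theorem F_differentiableAt_of_ne {x : Cm 2} (h0 : x ≠ 0) (hx : ‖x‖ < D.ε₀) :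
    DifferentiableAt ℂ D.F x := by
  have hε := hx.trans_le D.ε₀_le
  have hmem : D.φ (D.Θ x) ∈ D.Ω := D.lin_mem (D.Θ_mem x h0 hε)
    (by rw [D.Pi_Θ x h0 hε]; exact hx)
  have h1 : MDifferentiableAt 𝓘(ℂ, Cm 2) 𝓘(ℂ, Cm 2) (fun x => D.Pi (D.φ (D.Θ x))) x :=
    (D.Pi_holo _ hmem).comp x ((D.φ_holo _).comp x (D.Θ_holo x h0 hε))
  have h2 := h1.differentiableAt
  refine h2.congr_of_eventuallyEq ?_
  filter_upwards [isOpen_ne.mem_nhds h0] with z hz
  exact D.F_of_ne hz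

theorem F_continuousAt_zero : ContinuousAt D.F 0 := by
  rw [Metric.continuousAt_iff]
  intro η hη
  obtain ⟨δ, hδ, h2⟩ := D.small η hη
  refine ⟨min δ D.ε, lt_min hδ D.ε_pos, fun x hx => ?_⟩
  rw [dist_zero_right] at hx
  rw [F_zero, dist_zero_right]
  by_cases h0 : x = 0
  · rw [h0, F_zero, norm_zero]; exact hη
  · have hε := hx.trans_le (min_le_right _ _)
    rw [D.F_of_ne h0]
    exact (h2 _ (D.Θ_mem x h0 hε) (by rw [D.Pi_Θ x h0 hε]; exact hx.trans_le (min_le_left _ _))).2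

theorem F_differentiableOn : DifferentiableOn ℂ D.F (ball 0 D.ε₀) :=
  differentiableOn_of_punctured D.F_continuousAt_zero fun _ h0 hx =>
    D.F_differentiableAt_of_ne h0 hx

theorem F_differentiableAt_zero : DifferentiableAt ℂ D.F 0 :=
  D.F_differentiableOn.differentiableAt (isOpen_ball.mem_nhds (mem_ball_self D.ε₀_pos))

theorem F_iterate (k : ℕ) : ∀ η : ℝ, 0 < η → ∃ r : ℝ, 0 < r ∧ ∀ y ∈ D.Ω, ‖D.Pi y‖ < r →
    D.φ^[k] y ∈ D.Ω ∧ D.F^[k] (D.Pi y) = D.Pi (D.φ^[k] y) ∧ ‖D.Pi (D.φ^[k] y)‖ < η := by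
  induction k with
  | zero => exact fun η hη => ⟨η, hη, fun y hy h => ⟨hy, rfl, h⟩⟩
  | succ k ih =>
    intro η hη
    obtain ⟨r, hr, h⟩ := ih η hη
    obtain ⟨δ, hδ, h2⟩ := D.small r hr
    refine ⟨min D.ε₀ δ, lt_min D.ε₀_pos hδ, fun y hy hlt => ?_⟩
    have h1 : ‖D.Pi y‖ < D.ε₀ := hlt.trans_le (min_le_left _ _)
    obtain ⟨h3, h4⟩ := h2 y hy (hlt.trans_le (min_le_right _ _))
    obtain ⟨h5, h6⟩ := h (D.φ y) h3 h4
    rw [Function.iterate_succ_apply, Function.iterate_succ_apply, D.F_Pi hy h1]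
    exact ⟨h5, h6⟩

/-- The power of the germ. -/
def G (x : Cm 2) : Cm 2 := if x = 0 then 0 else D.Pi (D.φ^[D.K] (D.Θ x))

@[simp] theorem G_zero : D.G 0 = 0 := by simp [G]

theorem G_of_ne {x : Cm 2} (h : x ≠ 0) : D.G x = D.Pi (D.φ^[D.K] (D.Θ x)) := by simp [G, h]

theorem iterate_holo (k : ℕ) : MDifferentiable 𝓘(ℂ, Cm 2) 𝓘(ℂ, Cm 2) (D.φ^[k]) := by
  induction k with
  | zero => exact mdifferentiable_id
  | succ k ih =>
    rw [Function.iterate_succ']
    exact D.φ_holo.comp ih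

theorem G_differentiableOn : DifferentiableOn ℂ D.G (ball 0 D.r) := by
  refine differentiableOn_of_punctured ?_ ?_
  · rw [Metric.continuousAt_iff]
    intro η hη
    obtain ⟨δ, hδ, h2⟩ := D.F_iterate D.K η hη
    refine ⟨min δ D.ε, lt_min hδ D.ε_pos, fun x hx => ?_⟩
    rw [dist_zero_right] at hx
    rw [G_zero, dist_zero_right]
    by_cases h0 : x = 0
    · rw [h0, G_zero, norm_zero]; exact hη
    · have hε := hx.trans_le (min_le_right _ _)
      rw [D.G_of_ne h0]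
      exact (h2 _ (D.Θ_mem x h0 hε) (by rw [D.Pi_Θ x h0 hε]; exact hx.trans_le (min_le_left _ _))).2.2
  · intro x h0 hx
    have hε := hx.trans_le D.r_le
    have hmem : D.φ^[D.K] (D.Θ x) ∈ D.Ω := D.pow_mem _ (D.Θ_mem x h0 hε)
      (by rw [D.Pi_Θ x h0 hε]; exact hx)
    have h1 : MDifferentiableAt 𝓘(ℂ, Cm 2) 𝓘(ℂ, Cm 2) (fun x => D.Pi (D.φ^[D.K] (D.Θ x))) x :=
      (D.Pi_holo _ hmem).comp x ((D.iterate_holo D.K _).comp x (D.Θ_holo x h0 hε))
    refine h1.differentiableAt.congr_of_eventuallyEq ?_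
    filter_upwards [isOpen_ne.mem_nhds h0] with z hz
    exact D.G_of_ne hz

theorem norm_G_lt {x : Cm 2} (hx : ‖x‖ < D.r) : ‖D.G x‖ < D.r / 2 := by
  by_cases h0 : x = 0
  · rw [h0, G_zero, norm_zero]; exact half_pos D.r_pos
  · have hε := hx.trans_le D.r_le
    rw [D.G_of_ne h0]
    exact D.pow_lt _ (D.Θ_mem x h0 hε) (by rw [D.Pi_Θ x h0 hε]; exact hx)

/-- Schwarz lemma. -/
theorem norm_G_le {x : Cm 2} (hx : ‖x‖ < D.r) : ‖D.G x‖ ≤ 1 / 2 * ‖x‖ := by
  by_cases h0 : x = 0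
  · simp [h0]
  have hx0 : 0 < ‖x‖ := norm_pos_iff.2 h0
  -- restrict to the line through `x`
  set u : Cm 2 := ((‖x‖ : ℂ)⁻¹) • x with hu
  have hu1 : ‖u‖ = 1 := by
    rw [hu, norm_smul, norm_inv, Complex.norm_real, Real.norm_of_nonneg hx0.le]
    field_simp
  have hmaps : MapsTo (fun t : ℂ => t • u) (ball 0 D.r) (ball 0 D.r) := by
    intro t ht
    rw [mem_ball_zero_iff] at ht ⊢
    rw [norm_smul, hu1, mul_one]; exact ht
  have hd : DifferentiableOn ℂ (fun t : ℂ => D.G (t • u)) (ball 0 D.r) :=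
    D.G_differentiableOn.comp (by fun_prop) hmaps
  have hm : MapsTo (fun t : ℂ => D.G (t • u)) (ball 0 D.r) (ball ((fun t : ℂ => D.G (t • u)) 0) (D.r / 2)) := by
    intro t ht
    have h1 := D.norm_G_lt (x := t • u) (by simpa using hmaps ht)
    simpa using h1
  have hmem : (‖x‖ : ℂ) ∈ ball (0 : ℂ) D.r := by
    rw [mem_ball_zero_iff, Complex.norm_real, Real.norm_of_nonneg hx0.le]; exact hx
  have h2 := Complex.dist_le_div_mul_dist_of_mapsTo_ball hd (hm.mono_right ball_subset_closedBall) hmem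
  have h3 : (‖x‖ : ℂ) • u = x := by
    rw [hu, smul_smul, mul_inv_cancel₀ (by exact_mod_cast hx0.ne'), one_smul]
  have h4 : D.r / 2 / D.r = 1 / 2 := by
    have := D.r_pos.ne'
    field_simp
  simp only [h3, zero_smul, G_zero, dist_zero_right, h4, Complex.norm_real,
    Real.norm_of_nonneg hx0.le] at h2
  exact h2

/-- The power of the differential of the germ at `0` halves the norm. -/
theorem norm_fderiv_F_pow (x : Cm 2) : ‖((fderiv ℂ D.F 0) ^ D.K) x‖ ≤ 1 / 2 * ‖x‖ := by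
  have h1 : HasFDerivAt D.F^[D.K] (fderiv ℂ D.F 0 ^ D.K) 0 :=
    D.F_differentiableAt_zero.hasFDerivAt.iterate D.F_zero D.K
  have h0 : D.F^[D.K] 0 = 0 := Function.iterate_fixed D.F_zero D.K
  obtain ⟨ρ, hρ, h⟩ := D.F_iterate D.K 1 one_pos
  have h2 : ‖fderiv ℂ D.F 0 ^ D.K‖ ≤ 1 / 2 := by
    refine h1.le_of_lip' (by norm_num) ?_
    filter_upwards [ball_mem_nhds (0 : Cm 2) (lt_min hρ D.r_pos)] with x hx
    have hx' : ‖x‖ < min ρ D.r := by simpa using hx
    rw [h0, sub_zero, sub_zero]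
    by_cases hx0 : x = 0
    · rw [hx0, h0]; simp
    · have hr := hx'.trans_le (min_le_right _ _)
      have hε := hr.trans_le D.r_le
      have h3 := D.Θ_mem x hx0 hε
      have h4 := D.Pi_Θ x hx0 hε
      have h5 := (h _ h3 (by rw [h4]; exact hx'.trans_le (min_le_left _ _))).2.1
      rw [h4] at h5
      rw [h5, ← D.G_of_ne hx0]
      exact D.norm_G_le hr
  exact (ContinuousLinearMap.le_opNorm _ _).trans (mul_le_mul_of_nonneg_right h2 (norm_nonneg _))

/-- A Euclidean norm contracted by the germ. -/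
theorem exists_norm : ∃ (A : Cm 2 ≃L[ℂ] E2) (θ R : ℝ), 0 < θ ∧ θ < 1 ∧ 0 < R ∧
    (∀ x, ‖A x‖ ≤ R → ‖x‖ ≤ D.ε₀ / 2) ∧ ∀ x, ‖A x‖ ≤ R → ‖A (D.F x)‖ ≤ θ * ‖A x‖ := by
  obtain ⟨A, θ, hθ0, hθ1, hA⟩ := exists_adapted_of_pow (V := Cm 2) (by simp) (fderiv ℂ D.F 0)
    D.norm_fderiv_F_pow
  set κ : ℝ := (1 - θ) / 2 with hκ
  have hκ0 : 0 < κ := by rw [hκ]; linarith
  set a : ℝ := ‖(A : Cm 2 →L[ℂ] E2)‖ with ha
  set b : ℝ := ‖(A.symm : E2 →L[ℂ] Cm 2)‖ with hb
  have hxA : ∀ x, ‖x‖ ≤ b * ‖A x‖ := by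
    intro x
    have := (A.symm : E2 →L[ℂ] Cm 2).le_opNorm (A x)
    simpa using this
  have hAx : ∀ x, ‖A x‖ ≤ a * ‖x‖ := fun x => (A : Cm 2 →L[ℂ] E2).le_opNorm x
  have ha0 : 0 ≤ a := norm_nonneg _
  have hb0 : 0 ≤ b := norm_nonneg _
  have hlit := D.F_differentiableAt_zero.hasFDerivAt.isLittleO
  have hc : (0 : ℝ) < κ / (a * b + 1) := by positivity
  have h1 := hlit.def hc
  rw [Metric.eventually_nhds_iff] at h1
  obtain ⟨r, hr, h1⟩ := h1
  refine ⟨A, θ + κ, min (D.ε₀ / (2 * (b + 1))) (r / (2 * (b + 1))), by positivity, ?_, ?_, ?_, ?_⟩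
  · rw [hκ]; linarith
  · exact lt_min (div_pos D.ε₀_pos (by positivity)) (by positivity)
  · intro x hx
    have h2 := hx.trans (min_le_left _ _)
    have h3 := hxA x
    have hε := D.ε₀_pos
    rw [le_div_iff₀ (by positivity)] at h2
    nlinarith [norm_nonneg (A x)]
  · intro x hx
    have h2 := hx.trans (min_le_right _ _)
    have h3 := hxA x
    have h4 : ‖x‖ < r := by
      rw [le_div_iff₀ (by positivity)] at h2
      nlinarith [norm_nonneg (A x)]
    have h5 := h1 (y := x) (by simpa using h4)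
    simp only [F_zero, sub_zero] at h5
    have h6 : A (D.F x) = A (fderiv ℂ D.F 0 x) + A (D.F x - fderiv ℂ D.F 0 x) := by
      rw [← map_add]; congr 1; abel
    have h7 : ‖A (D.F x - fderiv ℂ D.F 0 x)‖ ≤ κ * ‖A x‖ := by
      refine (hAx _).trans ?_
      have h8 : a * ‖D.F x - fderiv ℂ D.F 0 x‖ ≤ a * (κ / (a * b + 1) * (b * ‖A x‖)) :=
        mul_le_mul_of_nonneg_left (h5.trans (mul_le_mul_of_nonneg_left h3 hc.le)) ha0
      refine h8.trans ?_
      have h9 : a * (κ / (a * b + 1) * (b * ‖A x‖)) = (a * b) / (a * b + 1) * (κ * ‖A x‖) := by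
        field_simp
      rw [h9]
      have h10 : (a * b) / (a * b + 1) ≤ 1 := by
        rw [div_le_one (by positivity)]; linarith
      have h11 : 0 ≤ κ * ‖A x‖ := by positivity
      nlinarith
    calc ‖A (D.F x)‖ ≤ ‖A (fderiv ℂ D.F 0 x)‖ + ‖A (D.F x - fderiv ℂ D.F 0 x)‖ := by
          rw [h6]; exact norm_add_le _ _
      _ ≤ θ * ‖A x‖ + κ * ‖A x‖ := add_le_add (hA x) h7
      _ = (θ + κ) * ‖A x‖ := by ring

end Germ

end Vale.Agent.P267.H615
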