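import Vale.Agent.P267.H615.Germ
import Mathlib.Analysis.Normed.Module.Connected
import Mathlib.LinearAlgebra.Complex.FiniteDimensional

/-!
# From a contracting germ on the cyclic covering to a global spherical shell, II

`Germ.hasGSS`: a compact surface `X` with a `Germ X Y` contains a global spherical shell.
-/

open Set Filter Metric
open scoped Topology Manifold ContDiff
open Vale.Agent.P272.K (Cm)

noncomputable section

namespace Vale.Agent.P267.H615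

theorem isPreconnected_puncturedBall {a : ℝ} (ha : 0 < a) :
    IsPreconnected {v : E2 | v ≠ 0 ∧ ‖v‖ ≤ a} := by
  have hrank : 1 < Module.rank ℝ E2 := by
    rw [rank_real_of_complex, ← Module.finrank_eq_rank]
    simp
    norm_num
  have h1 : IsPreconnected (Ioc (0 : ℝ) 1 ×ˢ sphere (0 : E2) a) :=
    isPreconnected_Ioc.prod (isPreconnected_sphere hrank 0 a)
  have h2 : {v : E2 | v ≠ 0 ∧ ‖v‖ ≤ a} = (fun q : ℝ × E2 => q.1 • q.2) '' (Ioc (0 : ℝ) 1 ×ˢ sphere (0 : E2) a) := by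
    ext v
    constructor
    · rintro ⟨h0, hle⟩
      have hv : 0 < ‖v‖ := norm_pos_iff.2 h0
      refine ⟨(‖v‖ / a, (a / ‖v‖) • v), ⟨⟨by positivity, by rw [div_le_one ha]; exact hle⟩, ?_⟩, ?_⟩
      · rw [mem_sphere_zero_iff_norm, norm_smul, Real.norm_of_nonneg (by positivity)]
        field_simp
      · show (‖v‖ / a) • ((a / ‖v‖) • v) = v
        rw [smul_smul]
        have : ‖v‖ / a * (a / ‖v‖) = 1 := by field_simp
        rw [this, one_smul]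
    · rintro ⟨⟨t, w⟩, ⟨⟨ht0, ht1⟩, hw⟩, rfl⟩
      have hw' : ‖w‖ = a := mem_sphere_zero_iff_norm.1 hw
      constructor
      · show t • w ≠ 0
        refine smul_ne_zero ht0.ne' ?_
        rw [← norm_pos_iff, hw']; exact ha
      · show ‖t • w‖ ≤ a
        rw [norm_smul, Real.norm_of_nonneg ht0.le, hw']
        nlinarith
  rw [h2]
  exact h1.image _ (by fun_prop)

variable {X Y : Type*} [TopologicalSpace X] [ChartedSpace (Cm 2) X]
    [TopologicalSpace Y] [ChartedSpace (Cm 2) Y] (D : Germ X Y)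

namespace Germ

/-- The open balls around the end. -/
def N (A : Cm 2 ≃L[ℂ] E2) (s : ℝ) : Set Y := {y | y ∈ D.Ω ∧ ‖A (D.Pi y)‖ < s}

/-- The closed balls around the end. -/
def B (A : Cm 2 ≃L[ℂ] E2) (s : ℝ) : Set Y := {y | y ∈ D.Ω ∧ ‖A (D.Pi y)‖ ≤ s}

theorem Pi_continuousOn : ContinuousOn D.Pi D.Ω := fun y hy =>
  (D.Pi_holo y hy).continuousAt.continuousWithinAt

theorem isOpen_N (A : Cm 2 ≃L[ℂ] E2) (s : ℝ) : IsOpen (D.N A s) := by
  have h : ContinuousOn (fun y => ‖A (D.Pi y)‖) D.Ω :=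
    (A.continuous.comp_continuousOn D.Pi_continuousOn).norm
  exact h.isOpen_inter_preimage D.Ω_open isOpen_Iio

/-- The data of the adapted norm. -/
structure Adapted (A : Cm 2 ≃L[ℂ] E2) (θ R : ℝ) : Prop where
  pos : 0 < R
  theta_pos : 0 < θ
  theta_lt : θ < 1
  small : ∀ x, ‖A x‖ ≤ R → ‖x‖ ≤ D.ε₀ / 2
  contr : ∀ x, ‖A x‖ ≤ R → ‖A (D.F x)‖ ≤ θ * ‖A x‖

variable {D} {A : Cm 2 ≃L[ℂ] E2} {θ R : ℝ}

theorem Adapted.lt (h : D.Adapted A θ R) {x : Cm 2} (hx : ‖A x‖ ≤ R) : ‖x‖ < D.ε₀ := by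
  have := h.small x hx
  have := D.ε₀_pos
  linarith

theorem Adapted.isClosed (h : D.Adapted A θ R) {s : ℝ} (hs : s ≤ R) : IsClosed (D.B A s) := by
  have h0 := D.ε₀_pos
  have h1 := D.isClosed (D.ε₀ / 2) (by have := D.ε₀_le; linarith)
  have h2 : ContinuousOn (fun y => ‖A (D.Pi y)‖) {y | y ∈ D.Ω ∧ ‖D.Pi y‖ ≤ D.ε₀ / 2} :=
    (A.continuous.comp_continuousOn D.Pi_continuousOn).norm.mono fun y hy => hy.1
  have h3 : D.B A s = {y | y ∈ D.Ω ∧ ‖D.Pi y‖ ≤ D.ε₀ / 2} ∩ (fun y => ‖A (D.Pi y)‖) ⁻¹' Iic s := by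
    ext y
    constructor
    · rintro ⟨hy, hle⟩
      exact ⟨⟨hy, h.small _ (hle.trans hs)⟩, hle⟩
    · rintro ⟨⟨hy, -⟩, hle⟩
      exact ⟨hy, hle⟩
  rw [h3]
  exact h2.preimage_isClosed_of_isClosed h1 isClosed_Iic

theorem Adapted.map (h : D.Adapted A θ R) {y : Y} (hy : y ∈ D.Ω) (hR : ‖A (D.Pi y)‖ ≤ R) :
    D.φ y ∈ D.Ω ∧ ‖A (D.Pi (D.φ y))‖ ≤ θ * ‖A (D.Pi y)‖ := by
  have h1 := h.lt hR
  refine ⟨D.lin_mem hy h1, ?_⟩
  rw [← D.F_Pi hy h1]
  exact h.contr _ hR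

theorem Adapted.iterate (h : D.Adapted A θ R) {y : Y} (hy : y ∈ D.Ω) (hR : ‖A (D.Pi y)‖ ≤ R) (k : ℕ) :
    D.φ^[k] y ∈ D.Ω ∧ ‖A (D.Pi (D.φ^[k] y))‖ ≤ ‖A (D.Pi y)‖ := by
  induction k with
  | zero => exact ⟨hy, le_rfl⟩
  | succ k ih =>
    rw [Function.iterate_succ_apply']
    obtain ⟨h1, h2⟩ := h.map ih.1 (ih.2.trans hR)
    refine ⟨h1, h2.trans ?_⟩
    have h3 := norm_nonneg (A (D.Pi (D.φ^[k] y)))
    have h4 := h.theta_lt
    nlinarith [ih.2]

theorem Adapted.iterate_succ (h : D.Adapted A θ R) {y : Y} (hy : y ∈ D.Ω) (hR : ‖A (D.Pi y)‖ ≤ R)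
    (k : ℕ) : ‖A (D.Pi (D.φ^[k + 1] y))‖ ≤ θ * ‖A (D.Pi y)‖ := by
  rw [Function.iterate_succ_apply']
  obtain ⟨h1, h2⟩ := h.iterate hy hR k
  have h3 := (h.map h1 (h2.trans hR)).2
  have h4 := h.theta_pos
  nlinarith

theorem Adapted.Θ_mem (h : D.Adapted A θ R) {x : Cm 2} (h0 : x ≠ 0) (hx : ‖A x‖ ≤ R) :
    D.Θ x ∈ D.Ω ∧ D.Pi (D.Θ x) = x :=
  ⟨D.Θ_mem x h0 ((h.lt hx).trans_le D.ε₀_le), D.Pi_Θ x h0 ((h.lt hx).trans_le D.ε₀_le)⟩

theorem Adapted.Θ_cont (h : D.Adapted A θ R) {x : Cm 2} (h0 : x ≠ 0) (hx : ‖A x‖ ≤ R) :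
    ContinuousAt D.Θ x := (D.Θ_holo x h0 ((h.lt hx).trans_le D.ε₀_le)).continuousAt

theorem Adapted.Θ_Pi (h : D.Adapted A θ R) {y : Y} (hy : y ∈ D.Ω) (h0 : D.Pi y ≠ 0)
    (hx : ‖A (D.Pi y)‖ ≤ R) : D.Θ (D.Pi y) = y :=
  D.Θ_Pi y hy h0 ((h.lt hx).trans_le D.ε₀_le)

/-- The closed balls around the end are connected. -/
theorem Adapted.isPreconnected_B (h : D.Adapted A θ R) {s : ℝ} (hs0 : 0 < s) (hs : s ≤ R) :
    IsPreconnected (D.B A s) := by
  set P : Set (Cm 2) := A.symm '' {v : E2 | v ≠ 0 ∧ ‖v‖ ≤ s} with hP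
  have hPm : ∀ x ∈ P, x ≠ 0 ∧ ‖A x‖ ≤ s := by
    rintro _ ⟨v, ⟨hv0, hv⟩, rfl⟩
    refine ⟨?_, by simpa using hv⟩
    intro h0
    apply hv0
    have := congrArg A h0
    simpa using this
  have h1 : IsPreconnected (D.Θ '' P) := by
    refine ((isPreconnected_puncturedBall hs0).image _ A.symm.continuous.continuousOn).image _ ?_
    intro x hx
    obtain ⟨hx0, hxs⟩ := hPm x hx
    exact (h.Θ_cont hx0 (hxs.trans hs)).continuousWithinAt
  refine h1.subset_closure ?_ ?_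
  · rintro _ ⟨x, hx, rfl⟩
    obtain ⟨hx0, hxs⟩ := hPm x hx
    obtain ⟨h2, h3⟩ := h.Θ_mem hx0 (hxs.trans hs)
    exact ⟨h2, by rw [h3]; exact hxs⟩
  · rintro y ⟨hy, hle⟩
    have hmem : ∀ z ∈ D.Ω, D.Pi z ≠ 0 → ‖A (D.Pi z)‖ ≤ s → z ∈ D.Θ '' P := by
      intro z hz hz0 hzs
      refine ⟨D.Pi z, ⟨A (D.Pi z), ⟨?_, hzs⟩, by simp⟩, h.Θ_Pi hz hz0 (hzs.trans hs)⟩
      intro h0
      apply hz0
      have := congrArg A.symm h0
      simpa using this
    by_cases h0 : D.Pi y = 0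
    · rw [mem_closure_iff_frequently]
      have h2 : ∀ᶠ z in 𝓝 y, z ∈ D.N A s := by
        refine (D.isOpen_N A s).mem_nhds ⟨hy, ?_⟩
        rw [h0]; simpa using hs0
      refine ((D.frequently_ne y hy).and_eventually h2).mono ?_
      rintro z ⟨hz0, hz⟩
      exact hmem z hz.1 hz0 hz.2.le
    · exact subset_closure (hmem y hy h0 hle)

/-- The open shell `a < |Pi| < b`. -/
def S (D : Germ X Y) (A : Cm 2 ≃L[ℂ] E2) (a b : ℝ) : Set Y :=
  {y | y ∈ D.Ω ∧ a < ‖A (D.Pi y)‖ ∧ ‖A (D.Pi y)‖ < b}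

theorem isOpen_S (a b : ℝ) : IsOpen (D.S A a b) := by
  have h : ContinuousOn (fun y => ‖A (D.Pi y)‖) D.Ω :=
    (A.continuous.comp_continuousOn D.Pi_continuousOn).norm
  exact h.isOpen_inter_preimage D.Ω_open isOpen_Ioo

/-- The closed fundamental domain minus the shell. -/
def T (D : Germ X Y) (A : Cm 2 ≃L[ℂ] E2) (a b : ℝ) : Set Y := D.B A a \ D.φ '' D.N A b

theorem isOpenMap_p : IsOpenMap D.p := by
  intro V hV
  rw [isOpen_iff_mem_nhds]
  rintro _ ⟨y, hy, rfl⟩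
  obtain ⟨s, hs1, hs2, hs3⟩ := D.p_sec y
  have h1 : ∀ᶠ x in 𝓝 (D.p y), s x ∈ V :=
    hs3.continuousAt.eventually (by rw [hs1]; exact hV.mem_nhds hy)
  filter_upwards [h1, hs2] with x hx1 hx2
  exact ⟨s x, hx1, hx2⟩

section Orbits

variable {a b : ℝ}

/-- The covering is injective on the shell. -/
theorem Adapted.injOn (h : D.Adapted A θ R) (hb : b ≤ R) (hab : θ * b < a) :
    InjOn D.p (D.S A a b) := by
  have key : ∀ y ∈ D.S A a b, ∀ y' ∈ D.S A a b, ∀ k : ℕ, D.φ^[k] y = y' → y = y' := by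
    rintro y ⟨hy, h1, h2⟩ y' ⟨hy', h3, h4⟩ k hk
    rcases k with _ | k
    · exact hk
    · exfalso
      have := h.iterate_succ hy (h2.le.trans hb) k
      rw [hk] at this
      have h5 := h.theta_pos
      nlinarith
  intro y hy y' hy' he
  obtain ⟨k, hk | hk⟩ := (D.p_eq y y').1 he
  · exact key y hy y' hy' k hk
  · exact (key y' hy' y hy k hk).symm

theorem T_union (A : Cm 2 ≃L[ℂ] E2) (ha : 0 < a) (b : ℝ) (x : X) :
    x ∈ D.p '' T D A a b ∨ x ∈ D.p '' D.S A a b := by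
  classical
  obtain ⟨y0, rfl⟩ := D.p_surj x
  -- first go far away from the end
  obtain ⟨j, hj⟩ := D.exit y0
  set y1 := D.φ.symm^[j] y0 with hy1
  have hleft : ∀ n : ℕ, ∀ y, D.φ^[n] (D.φ.symm^[n] y) = y := fun n y =>
    (Function.LeftInverse.iterate D.φ.apply_symm_apply n) y
  have hp1 : D.p y1 = D.p y0 := (D.p_eq _ _).2 ⟨j, Or.inl (hleft j y0)⟩
  -- the first time in the ball
  have hex : ∃ k : ℕ, D.φ^[k] y1 ∈ D.B A a := by
    set c : ℝ := ‖(A : Cm 2 →L[ℂ] E2)‖ with hc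
    have hc0 : 0 ≤ c := norm_nonneg _
    obtain ⟨k, hk1, hk2⟩ := D.absorb (a / (c + 1)) (by positivity) y1
    refine ⟨k, hk1, ?_⟩
    have h1 : ‖A (D.Pi (D.φ^[k] y1))‖ ≤ c * ‖D.Pi (D.φ^[k] y1)‖ := (A : Cm 2 →L[ℂ] E2).le_opNorm _
    have h2 : ‖D.Pi (D.φ^[k] y1)‖ * (c + 1) < a := by rwa [lt_div_iff₀ (by positivity)] at hk2
    have := norm_nonneg (D.Pi (D.φ^[k] y1))
    nlinarith
  have hk := Nat.find_spec hex
  set k := Nat.find hex with hkdef
  have hk0 : k ≠ 0 := by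
    intro h0
    rw [h0] at hk
    exact hj hk.1
  obtain ⟨m, hm⟩ := Nat.exists_eq_succ_of_ne_zero hk0
  have hm' : D.φ^[m] y1 ∉ D.B A a := Nat.find_min hex (by rw [← hkdef, hm]; exact Nat.lt_succ_self m)
  have hpk : D.p (D.φ^[k] y1) = D.p y0 := by
    rw [← hp1]; exact ((D.p_eq _ _).2 ⟨k, Or.inl rfl⟩).symm
  have hpm : D.p (D.φ^[m] y1) = D.p y0 := by
    rw [← hp1]; exact ((D.p_eq _ _).2 ⟨m, Or.inl rfl⟩).symm
  have hkm : D.φ^[k] y1 = D.φ (D.φ^[m] y1) := by rw [hm, Function.iterate_succ_apply']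
  by_cases hN : D.φ^[m] y1 ∈ D.N A b
  · right
    refine ⟨D.φ^[m] y1, ⟨hN.1, ?_, hN.2⟩, hpm⟩
    by_contra hle
    exact hm' ⟨hN.1, not_lt.1 hle⟩
  · left
    refine ⟨D.φ^[k] y1, ⟨hk, ?_⟩, hpk⟩
    rintro ⟨z, hz, hz2⟩
    rw [hkm] at hz2
    exact hN (D.φ.injective hz2 ▸ hz)

theorem Adapted.T_disjoint (h : D.Adapted A θ R) (haR : a ≤ R) (hb : b ≤ R) :
    Disjoint (D.p '' T D A a b) (D.p '' D.S A a b) := by
  rw [Set.disjoint_left]
  rintro _ ⟨y, ⟨⟨hyΩ, hya⟩, hyN⟩, rfl⟩ ⟨y', ⟨hyΩ', h1, h2⟩, he⟩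
  obtain ⟨k, hk | hk⟩ := (D.p_eq y' y).1 he
  · rcases k with _ | k
    · have : y' = y := hk
      rw [this] at h1
      linarith
    · apply hyN
      obtain ⟨h3, h4⟩ := h.iterate hyΩ' (h2.le.trans hb) k
      refine ⟨D.φ^[k] y', ⟨h3, h4.trans_lt h2⟩, ?_⟩
      rw [← Function.iterate_succ_apply' D.φ]; exact hk
  · have h3 := (h.iterate hyΩ (hya.trans haR) k).2
    rw [hk] at h3
    linarith

theorem Adapted.compl_eq (h : D.Adapted A θ R) (ha : 0 < a) (haR : a ≤ R) (hb : b ≤ R) :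
    (D.p '' D.S A a b)ᶜ = D.p '' T D A a b := by
  ext x
  constructor
  · intro hx
    exact (T_union A ha b x).resolve_right hx
  · intro hx hx'
    exact Set.disjoint_left.1 (h.T_disjoint haR hb) hx hx'

/-- The boundary sphere. -/
def Sph (D : Germ X Y) (A : Cm 2 ≃L[ℂ] E2) (b : ℝ) : Set Y := {y | y ∈ D.Ω ∧ ‖A (D.Pi y)‖ = b}

theorem Adapted.isConnected_Sph (h : D.Adapted A θ R) (hb0 : 0 < b) (hb : b ≤ R) :
    IsConnected (Sph D A b) := by
  have hrank : 1 < Module.rank ℝ E2 := by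
    rw [rank_real_of_complex, ← Module.finrank_eq_rank]
    simp
    norm_num
  have h1 : IsConnected (D.Θ '' (A.symm '' sphere (0 : E2) b)) := by
    refine ((isConnected_sphere hrank 0 hb0.le).image _ A.symm.continuous.continuousOn).image _ ?_
    rintro _ ⟨v, hv, rfl⟩
    have hv' : ‖v‖ = b := mem_sphere_zero_iff_norm.1 hv
    refine (h.Θ_cont ?_ (by simpa [hv'] using hb)).continuousWithinAt
    intro h0
    have h2 := congrArg A h0
    simp only [ContinuousLinearEquiv.apply_symm_apply, map_zero] at h2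
    rw [h2, norm_zero] at hv'
    exact hb0.ne hv'
  have h2 : Sph D A b = D.Θ '' (A.symm '' sphere (0 : E2) b) := by
    ext y
    constructor
    · rintro ⟨hy, hyb⟩
      have h0 : D.Pi y ≠ 0 := by
        intro h0
        rw [h0] at hyb
        simp at hyb
        exact hb0.ne hyb
      exact ⟨D.Pi y, ⟨A (D.Pi y), by simpa using hyb, by simp⟩, h.Θ_Pi hy h0 (hyb.le.trans hb)⟩
    · rintro ⟨_, ⟨v, hv, rfl⟩, rfl⟩
      have hv' : ‖v‖ = b := mem_sphere_zero_iff_norm.1 hv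
      have h0 : A.symm v ≠ 0 := by
        intro h0
        have h2 := congrArg A h0
        simp only [ContinuousLinearEquiv.apply_symm_apply, map_zero] at h2
        rw [h2, norm_zero] at hv'
        exact hb0.ne hv'
      obtain ⟨h3, h4⟩ := h.Θ_mem h0 (by simpa [hv'] using hb)
      exact ⟨h3, by rw [h4]; simpa using hv'⟩
  rw [h2]; exact h1

/-- The complement of the shell is connected. -/
theorem Adapted.isConnected_T (h : D.Adapted A θ R) (ha : 0 < a) (haR : a ≤ R) (hb : b ≤ R)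
    (hab : θ * b < a) (hab' : a < b) : IsConnected (T D A a b) := by
  have hb0 : 0 < b := ha.trans hab'
  set Z : Set Y := D.φ '' Sph D A b with hZ
  have hZc : IsConnected Z := (h.isConnected_Sph hb0 hb).image _ D.φ.continuous.continuousOn
  have hZT : Z ⊆ T D A a b := by
    rintro _ ⟨y, ⟨hy, hyb⟩, rfl⟩
    obtain ⟨h1, h2⟩ := h.map hy (hyb.le.trans hb)
    refine ⟨⟨h1, ?_⟩, ?_⟩
    · rw [hyb] at h2; linarith
    · rintro ⟨z, hz, hz2⟩
      rw [D.φ.injective hz2] at hz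
      have := hz.2
      linarith
  have hNB : D.φ '' D.N A b ⊆ D.B A a := by
    rintro _ ⟨y, ⟨hy, hyb⟩, rfl⟩
    obtain ⟨h1, h2⟩ := h.map hy (hyb.le.trans hb)
    have h5 := h.theta_pos
    exact ⟨h1, by nlinarith⟩
  have hTcl : IsClosed (T D A a b) :=
    (h.isClosed haR).sdiff (D.φ.isOpenMap _ (D.isOpen_N A b))
  refine ⟨hZc.nonempty.mono hZT, ?_⟩
  rw [isPreconnected_closed_iff]
  -- it is enough to exclude a decomposition such that the sphere lies in the first part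
  have key : ∀ u v : Set Y, IsClosed u → IsClosed v → T D A a b ⊆ u ∪ v →
      (T D A a b ∩ u).Nonempty → (T D A a b ∩ v).Nonempty → Disjoint Z v →
      (T D A a b ∩ (u ∩ v)).Nonempty := by
    intro u v hu hv huv hTu hTv hZv
    by_contra hne
    rw [Set.not_nonempty_iff_eq_empty] at hne
    have hBcl : IsClosed (D.φ '' D.B A b) := D.φ.isClosedMap _ (h.isClosed hb)
    have h1 := isPreconnected_closed_iff.1 (h.isPreconnected_B ha haR)
      ((T D A a b ∩ u) ∪ D.φ '' D.B A b) (T D A a b ∩ v) ((hTcl.inter hu).union hBcl)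
      (hTcl.inter hv) ?_ ?_ ?_
    · obtain ⟨y, -, hyu, hyT, hyv⟩ := h1
      rcases hyu with hyu | hyB
      · exact (Set.eq_empty_iff_forall_notMem.1 hne y) ⟨hyT, hyu.2, hyv⟩
      · obtain ⟨z, ⟨hz, hzb⟩, rfl⟩ := hyB
        have hzS : z ∈ Sph D A b := by
          refine ⟨hz, le_antisymm hzb ?_⟩
          by_contra hlt
          exact hyT.2 ⟨z, ⟨hz, not_le.1 hlt⟩, rfl⟩
        exact Set.disjoint_left.1 hZv ⟨z, hzS, rfl⟩ hyv
    · intro y hy
      by_cases hyT : y ∈ T D A a b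
      · rcases huv hyT with h2 | h2
        · exact Or.inl (Or.inl ⟨hyT, h2⟩)
        · exact Or.inr ⟨hyT, h2⟩
      · left; right
        have : y ∈ D.φ '' D.N A b := by
          by_contra hn
          exact hyT ⟨hy, hn⟩
        obtain ⟨z, hz, rfl⟩ := this
        exact ⟨z, ⟨hz.1, hz.2.le⟩, rfl⟩
    · obtain ⟨y, hyT, hyu⟩ := hTu
      exact ⟨y, hyT.1, Or.inl ⟨hyT, hyu⟩⟩
    · obtain ⟨y, hyT, hyv⟩ := hTv
      exact ⟨y, hyT.1, hyT, hyv⟩
  intro u v hu hv huv hTu hTv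
  by_contra hne
  have hZuv : Disjoint Z u ∨ Disjoint Z v := by
    by_contra hcon
    push Not at hcon
    obtain ⟨h1, h2⟩ := hcon
    rw [Set.not_disjoint_iff_nonempty_inter] at h1 h2
    have := isPreconnected_closed_iff.1 hZc.isPreconnected u v hu hv (hZT.trans huv) h1 h2
    exact hne (this.mono (inter_subset_inter_left _ hZT))
  rcases hZuv with hZu | hZv
  · refine hne ?_
    rw [inter_comm u v]
    exact key v u hv hu (by rwa [union_comm]) hTv hTu hZu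
  · exact hne (key u v hu hv huv hTu hTv hZv)

end Orbits

/-- **A surface with a contracting germ contains a global spherical shell.** -/
theorem hasGSS (D : Germ X Y) : HasGSS X := by
  classical
  obtain ⟨A, θ, R, hθ0, hθ1, hR0, hsmall, hcontr⟩ := D.exists_norm
  have h : D.Adapted A θ R := ⟨hR0, hθ0, hθ1, hsmall, hcontr⟩
  set ρ : ℝ := R / 2 with hρ
  have hρ0 : 0 < ρ := by positivity
  set δ : ℝ := (1 - θ) / 4 with hδ
  have hδ0 : 0 < δ := by rw [hδ]; linarith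
  have hδ1 : δ < 1 / 4 := by rw [hδ]; linarith
  set a : ℝ := (1 - δ) * ρ with ha
  set b : ℝ := (1 + δ) * ρ with hb
  have ha0 : 0 < a := mul_pos (by linarith) hρ0
  have hab0 : θ * (1 + δ) < 1 - δ := by rw [hδ]; nlinarith
  have hab : θ * b < a := by
    rw [ha, hb, ← mul_assoc]; exact mul_lt_mul_of_pos_right hab0 hρ0
  have hab' : a < b := by rw [ha, hb]; nlinarith
  have hbR : b ≤ R := by rw [hb, hρ]; nlinarith
  have haR : a ≤ R := (hab'.trans_le hbR).le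
  -- the linear coordinates
  let T2 : Cm 2 ≃L[ℂ] E2 := (EuclideanSpace.equiv (Fin 2) ℂ).symm
  have hT2 : ∀ z : Cm 2, ‖T2 z‖ ^ 2 = ‖z 0‖ ^ 2 + ‖z 1‖ ^ 2 := by
    intro z
    rw [EuclideanSpace.norm_sq_eq]
    simp [T2]
  have hρc : (ρ : ℂ) ≠ 0 := by exact_mod_cast hρ0.ne'
  let l : Cm 2 →L[ℂ] Cm 2 := (A.symm : E2 →L[ℂ] Cm 2).comp ((ρ : ℂ) • (T2 : Cm 2 →L[ℂ] E2))
  let l' : Cm 2 →L[ℂ] Cm 2 := (T2.symm : E2 →L[ℂ] Cm 2).comp ((ρ : ℂ)⁻¹ • (A : Cm 2 →L[ℂ] E2))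
  have hl : ∀ z, A (l z) = (ρ : ℂ) • T2 z := by
    intro z
    show A (A.symm ((ρ : ℂ) • T2 z)) = (ρ : ℂ) • T2 z
    exact A.apply_symm_apply _
  have hln : ∀ z, ‖A (l z)‖ = ρ * ‖T2 z‖ := by
    intro z
    rw [hl, norm_smul, Complex.norm_real, Real.norm_of_nonneg hρ0.le]
  have hll' : ∀ z, l' (l z) = z := by
    intro z
    show T2.symm ((ρ : ℂ)⁻¹ • A (l z)) = z
    rw [hl, smul_smul, inv_mul_cancel₀ hρc, one_smul]
    exact T2.symm_apply_apply z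
  have hl'l : ∀ x, l (l' x) = x := by
    intro x
    apply A.injective
    rw [hl]
    show (ρ : ℂ) • T2 (T2.symm ((ρ : ℂ)⁻¹ • A x)) = A x
    rw [T2.apply_symm_apply, smul_smul, mul_inv_cancel₀ hρc, one_smul]
  set U : Set (Cm 2) := {z | 1 - δ < ‖T2 z‖ ∧ ‖T2 z‖ < 1 + δ} with hU
  have hUm : ∀ z ∈ U, l z ≠ 0 ∧ a < ‖A (l z)‖ ∧ ‖A (l z)‖ < b := by
    rintro z ⟨h1, h2⟩
    have h3 : a < ‖A (l z)‖ := by rw [hln, ha]; nlinarith
    refine ⟨?_, h3, by rw [hln, hb]; nlinarith⟩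
    intro h0
    rw [h0] at h3
    simp at h3
    linarith
  have hFS : ∀ z ∈ U, D.Θ (l z) ∈ D.S A a b ∧ D.Pi (D.Θ (l z)) = l z := by
    intro z hz
    obtain ⟨h0, h1, h2⟩ := hUm z hz
    obtain ⟨h3, h4⟩ := h.Θ_mem h0 (h2.le.trans hbR)
    exact ⟨⟨h3, by rw [h4]; exact h1, by rw [h4]; exact h2⟩, h4⟩
  have himage : (fun z => D.p (D.Θ (l z))) '' U = D.p '' D.S A a b := by
    ext x
    constructor
    · rintro ⟨z, hz, rfl⟩
      exact ⟨_, (hFS z hz).1, rfl⟩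
    · rintro ⟨y, ⟨hy, h1, h2⟩, rfl⟩
      have h0 : D.Pi y ≠ 0 := by
        intro h0
        rw [h0] at h1
        simp at h1
        linarith
      refine ⟨l' (D.Pi y), ?_, ?_⟩
      · have h3 := hln (l' (D.Pi y))
        rw [hl'l] at h3
        rw [h3] at h1 h2
        constructor
        · rw [ha] at h1; nlinarith
        · rw [hb] at h2; nlinarith
      · show D.p (D.Θ (l (l' (D.Pi y)))) = D.p y
        rw [hl'l, h.Θ_Pi hy h0 (h2.le.trans hbR)]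
  -- the inverse
  let G : X → Cm 2 := fun x =>
    if hx : x ∈ D.p '' D.S A a b then l' (D.Pi hx.choose) else 0
  have hG : ∀ y ∈ D.S A a b, G (D.p y) = l' (D.Pi y) := by
    intro y hy
    have hx : D.p y ∈ D.p '' D.S A a b := ⟨y, hy, rfl⟩
    have h1 := hx.choose_spec
    have h2 : hx.choose = y := h.injOn hbR hab h1.1 hy h1.2
    show (if hx : D.p y ∈ D.p '' D.S A a b then l' (D.Pi hx.choose) else 0) = l' (D.Pi y)
    rw [dif_pos hx, h2]
  refine ⟨U, fun z => D.p (D.Θ (l z)), G, ?_, ?_, ?_, ?_, ?_, ?_, ?_, ?_⟩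
  · exact isOpen_Ioo.preimage (T2.continuous.norm)
  · rintro ⟨h1, -⟩
    simp at h1
    linarith
  · intro z hz
    have h1 : ‖T2 z‖ ^ 2 = 1 := by rw [hT2]; exact hz
    have h2 : ‖T2 z‖ = 1 := by
      have := norm_nonneg (T2 z)
      nlinarith
    exact ⟨by rw [h2]; linarith, by rw [h2]; linarith⟩
  · rw [himage]
    exact isOpenMap_p _ (isOpen_S a b)
  · intro z hz
    obtain ⟨h0, h1, h2⟩ := hUm z hz
    refine MDifferentiableAt.mdifferentiableWithinAt ?_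
    refine (D.p_holo _).comp z ((D.Θ_holo (l z) h0 ?_).comp z ?_)
    · exact (h.lt (h2.le.trans hbR)).trans_le D.ε₀_le
    · exact l.differentiableAt.mdifferentiableAt
  · rw [himage]
    rintro _ ⟨y, hy, rfl⟩
    refine MDifferentiableAt.mdifferentiableWithinAt ?_
    obtain ⟨s, hs1, hs2, hs3⟩ := D.p_sec y
    have h1 : MDifferentiableAt 𝓘(ℂ, Cm 2) 𝓘(ℂ, Cm 2) (fun x => l' (D.Pi (s x))) (D.p y) := by
      have h2 : MDifferentiableAt 𝓘(ℂ, Cm 2) 𝓘(ℂ, Cm 2) D.Pi (s (D.p y)) := by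
        rw [hs1]; exact D.Pi_holo y hy.1
      exact (l'.differentiableAt.mdifferentiableAt).comp (D.p y) (h2.comp (D.p y) hs3)
    refine h1.congr_of_eventuallyEq ?_
    have h3 : ∀ᶠ x in 𝓝 (D.p y), s x ∈ D.S A a b :=
      hs3.continuousAt.eventually (by rw [hs1]; exact (isOpen_S a b).mem_nhds hy)
    filter_upwards [h3, hs2] with x hx1 hx2
    rw [← hG _ hx1, hx2]
  · intro z hz
    show G (D.p (D.Θ (l z))) = z
    rw [hG _ (hFS z hz).1, (hFS z hz).2, hll']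
  · rw [himage, h.compl_eq ha0 haR hbR]
    exact (h.isConnected_T ha0 haR hbR hab hab').image _ D.p_holo.continuous.continuousOn

end Germ

end Vale.Agent.P267.H615
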