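import Vale.Agent.P267.H615.Kato

/-!
# The thin shell version of the theorem on contracting germs

`hasGSS_of_thinShell`: the coordinates `Pi` are assumed to be invertible only over a thin shell
`ρ₁ < |A x| < ρ₂`. `hasGSS_of_countable`: they are invertible off a countable closed set.
-/

open Set Filter Metric
open scoped Topology Manifold ContDiff
open Vale.Agent.P272.K (Cm)

noncomputable section

namespace Vale.Agent.P267.H615

theorem one_lt_rank_E2 : 1 < Module.rank ℝ E2 := by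
  rw [rank_real_of_complex, ← Module.finrank_eq_rank]
  simp
  norm_num

/-- The situation over a thin shell. -/
structure Thin (X Y : Type*) [TopologicalSpace X] [ChartedSpace (Cm 2) X]
    [TopologicalSpace Y] [ChartedSpace (Cm 2) Y] where
  p : Y → X
  φ : Y ≃ₜ Y
  Ω : Set Y
  Pi : Y → Cm 2
  Θ : Cm 2 → Y
  A : Cm 2 ≃L[ℂ] E2
  ρ₁ : ℝ
  ρ₂ : ℝ
  ρ₁_pos : 0 < ρ₁
  ρ_lt : ρ₁ < ρ₂
  p_surj : Function.Surjective p
  p_holo : MDifferentiable 𝓘(ℂ, Cm 2) 𝓘(ℂ, Cm 2) p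
  p_sec : ∀ y, ∃ s : X → Y, s (p y) = y ∧ (∀ᶠ x in 𝓝 (p y), p (s x) = x) ∧
    MDifferentiableAt 𝓘(ℂ, Cm 2) 𝓘(ℂ, Cm 2) s (p y)
  p_eq : ∀ y y', p y = p y' ↔ ∃ k : ℕ, φ^[k] y = y' ∨ φ^[k] y' = y
  Ω_open : IsOpen Ω
  Pi_cont : ContinuousOn Pi Ω
  Pi_holo : ∀ y ∈ Ω, ρ₁ < ‖A (Pi y)‖ → ‖A (Pi y)‖ < ρ₂ → MDifferentiableAt 𝓘(ℂ, Cm 2) 𝓘(ℂ, Cm 2) Pi y
  Θ_holo : ∀ x, ρ₁ < ‖A x‖ → ‖A x‖ < ρ₂ → MDifferentiableAt 𝓘(ℂ, Cm 2) 𝓘(ℂ, Cm 2) Θ x
  Θ_mem : ∀ x, ρ₁ < ‖A x‖ → ‖A x‖ < ρ₂ → Θ x ∈ Ω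
  Pi_Θ : ∀ x, ρ₁ < ‖A x‖ → ‖A x‖ < ρ₂ → Pi (Θ x) = x
  Θ_Pi : ∀ y ∈ Ω, ρ₁ < ‖A (Pi y)‖ → ‖A (Pi y)‖ < ρ₂ → Θ (Pi y) = y
  closed : ∀ s < ρ₂, IsClosed {y | y ∈ Ω ∧ ‖A (Pi y)‖ ≤ s}
  contr : ∀ y ∈ Ω, ‖A (Pi y)‖ < ρ₂ → φ y ∈ Ω ∧ ‖A (Pi (φ y))‖ ≤ ρ₁
  absorb : ∀ y, ∃ k : ℕ, φ^[k] y ∈ Ω ∧ ‖A (Pi (φ^[k] y))‖ < ρ₂
  exit : ∀ y, ∃ k : ℕ, φ.symm^[k] y ∉ Ω

namespace Thin

variable {X Y : Type*} [TopologicalSpace X] [ChartedSpace (Cm 2) X]
    [TopologicalSpace Y] [ChartedSpace (Cm 2) Y] (D : Thin X Y)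

/-- the norm of the coordinates -/
def q (y : Y) : ℝ := ‖D.A (D.Pi y)‖

theorem q_cont : ContinuousOn D.q D.Ω := (D.A.continuous.comp_continuousOn D.Pi_cont).norm

def N (s : ℝ) : Set Y := {y | y ∈ D.Ω ∧ D.q y < s}
def B (s : ℝ) : Set Y := {y | y ∈ D.Ω ∧ D.q y ≤ s}
def S (a b : ℝ) : Set Y := {y | y ∈ D.Ω ∧ a < D.q y ∧ D.q y < b}
def Sph (b : ℝ) : Set Y := {y | y ∈ D.Ω ∧ D.q y = b}
def T (a b : ℝ) : Set Y := D.B a \ D.φ '' D.N b

theorem isOpen_N (s : ℝ) : IsOpen (D.N s) := D.q_cont.isOpen_inter_preimage D.Ω_open isOpen_Iio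

theorem isOpen_S (a b : ℝ) : IsOpen (D.S a b) := D.q_cont.isOpen_inter_preimage D.Ω_open isOpen_Ioo

theorem isOpenMap_p : IsOpenMap D.p := by
  intro V hV
  rw [isOpen_iff_mem_nhds]
  rintro _ ⟨y, hy, rfl⟩
  obtain ⟨s, hs1, hs2, hs3⟩ := D.p_sec y
  have h1 : ∀ᶠ x in 𝓝 (D.p y), s x ∈ V :=
    hs3.continuousAt.eventually (by rw [hs1]; exact hV.mem_nhds hy)
  filter_upwards [h1, hs2] with x hx1 hx2
  exact ⟨s x, hx1, hx2⟩

theorem iterate_succ {y : Y} (hy : y ∈ D.Ω) (h : D.q y < D.ρ₂) (k : ℕ) :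
    D.φ^[k + 1] y ∈ D.Ω ∧ D.q (D.φ^[k + 1] y) ≤ D.ρ₁ := by
  induction k with
  | zero => exact D.contr y hy h
  | succ k ih =>
    rw [Function.iterate_succ_apply']
    exact D.contr _ ih.1 (ih.2.trans_lt D.ρ_lt)

variable {a b : ℝ}

theorem injOn (ha : D.ρ₁ < a) (hb : b < D.ρ₂) : InjOn D.p (D.S a b) := by
  have key : ∀ y ∈ D.S a b, ∀ y' ∈ D.S a b, ∀ k : ℕ, D.φ^[k] y = y' → y = y' := by
    rintro y ⟨hy, h1, h2⟩ y' ⟨hy', h3, h4⟩ k hk
    rcases k with _ | k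
    · exact hk
    · exfalso
      have := (D.iterate_succ hy (h2.trans hb) k).2
      rw [hk] at this
      linarith
  intro y hy y' hy' he
  obtain ⟨k, hk | hk⟩ := (D.p_eq y y').1 he
  · exact key y hy y' hy' k hk
  · exact (key y' hy' y hy k hk).symm

theorem T_union (ha : D.ρ₁ < a) (b : ℝ) (x : X) : x ∈ D.p '' D.T a b ∨ x ∈ D.p '' D.S a b := by
  classical
  obtain ⟨y0, rfl⟩ := D.p_surj x
  obtain ⟨j, hj⟩ := D.exit y0
  set y1 := D.φ.symm^[j] y0 with hy1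
  have hleft : ∀ n : ℕ, ∀ y, D.φ^[n] (D.φ.symm^[n] y) = y := fun n y =>
    (Function.LeftInverse.iterate D.φ.apply_symm_apply n) y
  have hp1 : D.p y1 = D.p y0 := (D.p_eq _ _).2 ⟨j, Or.inl (hleft j y0)⟩
  have hex : ∃ k : ℕ, D.φ^[k] y1 ∈ D.B a := by
    obtain ⟨k, hk1, hk2⟩ := D.absorb y1
    obtain ⟨h1, h2⟩ := D.contr _ hk1 hk2
    refine ⟨k + 1, ?_⟩
    rw [Function.iterate_succ_apply']
    exact ⟨h1, h2.trans ha.le⟩
  have hk := Nat.find_spec hex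
  set k := Nat.find hex with hkdef
  have hk0 : k ≠ 0 := by
    intro h0
    rw [h0] at hk
    exact hj hk.1
  obtain ⟨m, hm⟩ := Nat.exists_eq_succ_of_ne_zero hk0
  have hm' : D.φ^[m] y1 ∉ D.B a := Nat.find_min hex (by rw [← hkdef, hm]; exact Nat.lt_succ_self m)
  have hpk : D.p (D.φ^[k] y1) = D.p y0 := by
    rw [← hp1]; exact ((D.p_eq _ _).2 ⟨k, Or.inl rfl⟩).symm
  have hpm : D.p (D.φ^[m] y1) = D.p y0 := by
    rw [← hp1]; exact ((D.p_eq _ _).2 ⟨m, Or.inl rfl⟩).symm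
  have hkm : D.φ^[k] y1 = D.φ (D.φ^[m] y1) := by rw [hm, Function.iterate_succ_apply']
  by_cases hN : D.φ^[m] y1 ∈ D.N b
  · right
    refine ⟨D.φ^[m] y1, ⟨hN.1, ?_, hN.2⟩, hpm⟩
    by_contra hle
    exact hm' ⟨hN.1, not_lt.1 hle⟩
  · left
    refine ⟨D.φ^[k] y1, ⟨hk, ?_⟩, hpk⟩
    rintro ⟨z, hz, hz2⟩
    rw [hkm] at hz2
    exact hN (D.φ.injective hz2 ▸ hz)

theorem T_disjoint (ha : D.ρ₁ < a) (_hab : a < b) (hb : b < D.ρ₂) :
    Disjoint (D.p '' D.T a b) (D.p '' D.S a b) := by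
  rw [Set.disjoint_left]
  rintro _ ⟨y, ⟨⟨hyΩ, hya⟩, hyN⟩, rfl⟩ ⟨y', ⟨hyΩ', h1, h2⟩, he⟩
  obtain ⟨k, hk | hk⟩ := (D.p_eq y' y).1 he
  · rcases k with _ | k
    · have : y' = y := hk
      rw [this] at h1
      linarith
    · apply hyN
      rw [Function.iterate_succ_apply'] at hk
      refine ⟨D.φ^[k] y', ?_, hk⟩
      rcases k with _ | k
      · exact ⟨hyΩ', h2⟩
      · obtain ⟨h3, h4⟩ := D.iterate_succ hyΩ' (h2.trans hb) k
        exact ⟨h3, by linarith⟩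
  · rcases k with _ | k
    · have : y = y' := hk
      rw [← this] at h1
      linarith
    · have h3 := (D.iterate_succ hyΩ (by linarith) k).2
      rw [hk] at h3
      linarith

theorem compl_eq (ha : D.ρ₁ < a) (hab : a < b) (hb : b < D.ρ₂) :
    (D.p '' D.S a b)ᶜ = D.p '' D.T a b := by
  ext x
  constructor
  · intro hx
    exact (D.T_union ha b x).resolve_right hx
  · intro hx hx'
    exact Set.disjoint_left.1 (D.T_disjoint ha hab hb) hx hx'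

theorem isConnected_Sph (hb1 : D.ρ₁ < b) (hb : b < D.ρ₂) : IsConnected (D.Sph b) := by
  have hb0 : 0 < b := D.ρ₁_pos.trans hb1
  have h1 : IsConnected (D.Θ '' (D.A.symm '' sphere (0 : E2) b)) := by
    refine ((isConnected_sphere one_lt_rank_E2 0 hb0.le).image _
      D.A.symm.continuous.continuousOn).image _ ?_
    rintro _ ⟨v, hv, rfl⟩
    have hv' : ‖v‖ = b := mem_sphere_zero_iff_norm.1 hv
    exact (D.Θ_holo _ (by simpa [hv'] using hb1) (by simpa [hv'] using hb)).continuousAt.continuousWithinAt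
  have h2 : D.Sph b = D.Θ '' (D.A.symm '' sphere (0 : E2) b) := by
    ext y
    constructor
    · rintro ⟨hy, hyb⟩
      have hyb' : ‖D.A (D.Pi y)‖ = b := hyb
      exact ⟨D.Pi y, ⟨D.A (D.Pi y), by simpa using hyb', by simp⟩,
        D.Θ_Pi y hy (by rw [hyb']; exact hb1) (by rw [hyb']; exact hb)⟩
    · rintro ⟨_, ⟨v, hv, rfl⟩, rfl⟩
      have hv' : ‖v‖ = b := mem_sphere_zero_iff_norm.1 hv
      have h3 := D.Θ_mem (D.A.symm v) (by simpa [hv'] using hb1) (by simpa [hv'] using hb)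
      have h4 := D.Pi_Θ (D.A.symm v) (by simpa [hv'] using hb1) (by simpa [hv'] using hb)
      exact ⟨h3, by rw [q, h4]; simpa using hv'⟩
  rw [h2]; exact h1

/-- The complement of the shell is connected. -/
theorem isConnected_T [PreconnectedSpace Y] (ha : D.ρ₁ < a) (hab : a < b) (hb : b < D.ρ₂) :
    IsConnected (D.T a b) := by
  set Z : Set Y := D.φ '' D.Sph b with hZ
  have hZc : IsConnected Z := (D.isConnected_Sph (ha.trans hab) hb).image _ D.φ.continuous.continuousOn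
  have hSc : IsConnected (D.Sph a) := D.isConnected_Sph ha (hab.trans hb)
  have hZT : Z ⊆ D.T a b := by
    rintro _ ⟨y, ⟨hy, hyb⟩, rfl⟩
    obtain ⟨h1, h2⟩ := D.contr y hy (by show D.q y < _; rw [hyb]; exact hb)
    refine ⟨⟨h1, h2.trans ha.le⟩, ?_⟩
    rintro ⟨z, hz, hz2⟩
    rw [D.φ.injective hz2] at hz
    have := hz.2
    linarith
  have hNB : ∀ z ∈ D.N b, D.φ z ∈ D.Ω ∧ D.q (D.φ z) ≤ D.ρ₁ := fun z hz =>
    D.contr z hz.1 (hz.2.trans hb)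
  have hST : D.Sph a ⊆ D.T a b := by
    rintro y ⟨hy, hya⟩
    refine ⟨⟨hy, hya.le⟩, ?_⟩
    rintro ⟨z, hz, rfl⟩
    have := (hNB z hz).2
    linarith
  have hBa : IsClosed (D.B a) := D.closed a (hab.trans hb)
  have hBcl : IsClosed (D.φ '' D.B b) := D.φ.isClosedMap _ (D.closed b hb)
  have hTcl : IsClosed (D.T a b) := hBa.sdiff (D.φ.isOpenMap _ (D.isOpen_N b))
  have hBb : D.φ '' D.B b ⊆ D.N a := by
    rintro _ ⟨z, hz, rfl⟩
    obtain ⟨h1, h2⟩ := D.contr z hz.1 (lt_of_le_of_lt hz.2 hb)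
    exact ⟨h1, lt_of_le_of_lt h2 ha⟩
  refine ⟨hZc.nonempty.mono hZT, ?_⟩
  rw [isPreconnected_closed_iff]
  have key : ∀ u v : Set Y, IsClosed u → IsClosed v → D.T a b ⊆ u ∪ v →
      (D.T a b ∩ u).Nonempty → (D.T a b ∩ v).Nonempty → Disjoint Z v →
      (D.T a b ∩ (u ∩ v)).Nonempty := by
    intro u v hu hv huv hTu hTv hZv
    by_contra hne
    rw [Set.not_nonempty_iff_eq_empty] at hne
    set W : Set Y := (D.T a b ∩ u) ∪ D.φ '' D.B b with hW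
    set V : Set Y := D.T a b ∩ v with hV
    have hWcl : IsClosed W := (hTcl.inter hu).union hBcl
    have hVcl : IsClosed V := hTcl.inter hv
    have hcov : ∀ y, y ∈ D.B a → y ∈ W ∨ y ∈ V := by
      intro y hy
      by_cases hyT : y ∈ D.T a b
      · rcases huv hyT with h2 | h2
        · exact Or.inl (Or.inl ⟨hyT, h2⟩)
        · exact Or.inr ⟨hyT, h2⟩
      · left; right
        have : y ∈ D.φ '' D.N b := by
          by_contra hn
          exact hyT ⟨hy, hn⟩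
        obtain ⟨z, hz, rfl⟩ := this
        exact ⟨z, ⟨hz.1, hz.2.le⟩, rfl⟩
    have hdisj : ∀ y, y ∈ W → y ∈ V → False := by
      rintro y hyW ⟨hyT, hyv⟩
      rcases hyW with hyu | hyB
      · exact (Set.eq_empty_iff_forall_notMem.1 hne y) ⟨hyT, hyu.2, hyv⟩
      · obtain ⟨z, ⟨hz, hzb⟩, rfl⟩ := hyB
        have hzS : z ∈ D.Sph b := by
          refine ⟨hz, le_antisymm hzb ?_⟩
          by_contra hlt
          exact hyT.2 ⟨z, ⟨hz, not_le.1 hlt⟩, rfl⟩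
        exact Set.disjoint_left.1 hZv ⟨z, hzS, rfl⟩ hyv
    have hWB : W ⊆ D.B a := by
      rintro y (hy | hy)
      · exact hy.1.1
      · have := hBb hy
        exact ⟨this.1, this.2.le⟩
    have hVB : V ⊆ D.B a := fun y hy => hy.1.1
    have hNa : ∀ y ∈ D.B a, y ∉ D.Sph a → y ∈ D.N a := fun y hy hyS =>
      ⟨hy.1, lt_of_le_of_ne hy.2 fun h => hyS ⟨hy.1, h⟩⟩
    have hcase : Disjoint (D.Sph a) V ∨ Disjoint (D.Sph a) W := by
      by_contra hcon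
      push Not at hcon
      obtain ⟨h1, h2⟩ := hcon
      rw [Set.not_disjoint_iff_nonempty_inter] at h1 h2
      have := isPreconnected_closed_iff.1 hSc.isPreconnected V W hVcl hWcl
        (fun y hy => (hcov y (hST hy).1).symm) h1 h2
      obtain ⟨y, -, hyV, hyW⟩ := this
      exact hdisj y hyW hyV
    rcases hcase with h | h
    · -- `V` is clopen
      have hVo : IsOpen V := by
        have : V = D.N a \ W := by
          ext y
          constructor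
          · intro hy
            exact ⟨hNa y (hVB hy) fun hS => Set.disjoint_left.1 h hS hy, fun hW => hdisj y hW hy⟩
          · rintro ⟨hy, hyW⟩
            exact (hcov y ⟨hy.1, hy.2.le⟩).resolve_left hyW
        rw [this]
        exact (D.isOpen_N a).sdiff hWcl
      rcases isClopen_iff.1 ⟨hVcl, hVo⟩ with h0 | h1
      · exact hTv.ne_empty h0
      · obtain ⟨y, hy⟩ := hSc.nonempty
        have hyV : y ∈ V := by rw [h1]; trivial
        exact Set.disjoint_left.1 h hy hyV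
    · -- `W` is clopen
      have hWo : IsOpen W := by
        have : W = D.N a \ V := by
          ext y
          constructor
          · intro hy
            exact ⟨hNa y (hWB hy) fun hS => Set.disjoint_left.1 h hS hy, fun hV => hdisj y hy hV⟩
          · rintro ⟨hy, hyV⟩
            exact (hcov y ⟨hy.1, hy.2.le⟩).resolve_right hyV
        rw [this]
        exact (D.isOpen_N a).sdiff hVcl
      rcases isClopen_iff.1 ⟨hWcl, hWo⟩ with h0 | h1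
      · obtain ⟨y, hy⟩ := hTu
        have hyW : y ∈ W := Or.inl hy
        rw [h0] at hyW
        exact hyW
      · obtain ⟨y, hy⟩ := hSc.nonempty
        have hyW : y ∈ W := by rw [h1]; trivial
        exact Set.disjoint_left.1 h hy hyW
  intro u v hu hv huv hTu hTv
  by_contra hne
  have hZuv : Disjoint Z u ∨ Disjoint Z v := by
    by_contra hcon
    push Not at hcon
    obtain ⟨h1, h2⟩ := hcon
    rw [Set.not_disjoint_iff_nonempty_inter] at h1 h2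
    have := isPreconnected_closed_iff.1 hZc.isPreconnected u v hu hv (hZT.trans huv) h1 h2
    exact hne (this.mono (inter_subset_inter_left _ hZT))
  rcases hZuv with hZu | hZv
  · refine hne ?_
    rw [inter_comm u v]
    exact key v u hv hu (by rwa [union_comm]) hTv hTu hZu
  · exact hne (key u v hu hv huv hTu hTv hZv)

/-- **The thin shell theorem.** -/
theorem hasGSS [PreconnectedSpace Y] (D : Thin X Y) : HasGSS X := by
  classical
  obtain ⟨hρ1, hρ12⟩ : 0 < D.ρ₁ ∧ D.ρ₁ < D.ρ₂ := ⟨D.ρ₁_pos, D.ρ_lt⟩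
  set ρ : ℝ := (D.ρ₁ + D.ρ₂) / 2 with hρ
  have hρ0 : 0 < ρ := by rw [hρ]; linarith
  set η : ℝ := (D.ρ₂ - D.ρ₁) / 4 with hη
  have hη0 : 0 < η := by rw [hη]; linarith
  set a : ℝ := ρ - η with ha
  set b : ℝ := ρ + η with hb
  have ha1 : D.ρ₁ < a := by rw [ha, hρ, hη]; linarith
  have hab : a < b := by rw [ha, hb]; linarith
  have hb2 : b < D.ρ₂ := by rw [hb, hρ, hη]; linarith
  -- the linear coordinates
  let T2 : Cm 2 ≃L[ℂ] E2 := (EuclideanSpace.equiv (Fin 2) ℂ).symm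
  have hT2 : ∀ z : Cm 2, ‖T2 z‖ ^ 2 = ‖z 0‖ ^ 2 + ‖z 1‖ ^ 2 := by
    intro z
    rw [EuclideanSpace.norm_sq_eq]
    simp [T2]
  have hρc : (ρ : ℂ) ≠ 0 := by exact_mod_cast hρ0.ne'
  let l : Cm 2 →L[ℂ] Cm 2 := (D.A.symm : E2 →L[ℂ] Cm 2).comp ((ρ : ℂ) • (T2 : Cm 2 →L[ℂ] E2))
  let l' : Cm 2 →L[ℂ] Cm 2 := (T2.symm : E2 →L[ℂ] Cm 2).comp ((ρ : ℂ)⁻¹ • (D.A : Cm 2 →L[ℂ] E2))
  have hl : ∀ z, D.A (l z) = (ρ : ℂ) • T2 z := by
    intro z
    show D.A (D.A.symm ((ρ : ℂ) • T2 z)) = (ρ : ℂ) • T2 z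
    exact D.A.apply_symm_apply _
  have hln : ∀ z, ‖D.A (l z)‖ = ρ * ‖T2 z‖ := by
    intro z
    rw [hl, norm_smul, Complex.norm_real, Real.norm_of_nonneg hρ0.le]
  have hll' : ∀ z, l' (l z) = z := by
    intro z
    show T2.symm ((ρ : ℂ)⁻¹ • D.A (l z)) = z
    rw [hl, smul_smul, inv_mul_cancel₀ hρc, one_smul]
    exact T2.symm_apply_apply z
  have hl'l : ∀ x, l (l' x) = x := by
    intro x
    apply D.A.injective
    rw [hl]
    show (ρ : ℂ) • T2 (T2.symm ((ρ : ℂ)⁻¹ • D.A x)) = D.A x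
    rw [T2.apply_symm_apply, smul_smul, mul_inv_cancel₀ hρc, one_smul]
  set U : Set (Cm 2) := {z | a / ρ < ‖T2 z‖ ∧ ‖T2 z‖ < b / ρ} with hU
  have hUm : ∀ z ∈ U, a < ‖D.A (l z)‖ ∧ ‖D.A (l z)‖ < b := by
    rintro z ⟨h1, h2⟩
    rw [div_lt_iff₀ hρ0] at h1
    rw [lt_div_iff₀ hρ0] at h2
    rw [hln]
    constructor <;> linarith
  have hFS : ∀ z ∈ U, D.Θ (l z) ∈ D.S a b ∧ D.Pi (D.Θ (l z)) = l z := by
    intro z hz
    obtain ⟨h1, h2⟩ := hUm z hz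
    have h4 := D.Pi_Θ (l z) (ha1.trans h1) (h2.trans hb2)
    refine ⟨⟨D.Θ_mem (l z) (ha1.trans h1) (h2.trans hb2), ?_, ?_⟩, h4⟩
    · show a < ‖D.A (D.Pi (D.Θ (l z)))‖
      rw [h4]; exact h1
    · show ‖D.A (D.Pi (D.Θ (l z)))‖ < b
      rw [h4]; exact h2
  have himage : (fun z => D.p (D.Θ (l z))) '' U = D.p '' D.S a b := by
    ext x
    constructor
    · rintro ⟨z, hz, rfl⟩
      exact ⟨_, (hFS z hz).1, rfl⟩
    · rintro ⟨y, ⟨hy, h1, h2⟩, rfl⟩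
      change a < ‖D.A (D.Pi y)‖ at h1
      change ‖D.A (D.Pi y)‖ < b at h2
      have h5 := D.Θ_Pi y hy (ha1.trans h1) (h2.trans hb2)
      refine ⟨l' (D.Pi y), ?_, ?_⟩
      · have h3 := hln (l' (D.Pi y))
        rw [hl'l] at h3
        rw [h3] at h1 h2
        constructor
        · rw [div_lt_iff₀ hρ0]; linarith
        · rw [lt_div_iff₀ hρ0]; linarith
      · show D.p (D.Θ (l (l' (D.Pi y)))) = D.p y
        rw [hl'l, h5]
  -- the inverse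
  let G : X → Cm 2 := fun x =>
    if hx : x ∈ D.p '' D.S a b then l' (D.Pi hx.choose) else 0
  have hG : ∀ y ∈ D.S a b, G (D.p y) = l' (D.Pi y) := by
    intro y hy
    have hx : D.p y ∈ D.p '' D.S a b := ⟨y, hy, rfl⟩
    have h1 := hx.choose_spec
    have h2 : hx.choose = y := D.injOn ha1 hb2 h1.1 hy h1.2
    show (if hx : D.p y ∈ D.p '' D.S a b then l' (D.Pi hx.choose) else 0) = l' (D.Pi y)
    rw [dif_pos hx, h2]
  refine ⟨U, fun z => D.p (D.Θ (l z)), G, ?_, ?_, ?_, ?_, ?_, ?_, ?_, ?_⟩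
  · exact isOpen_Ioo.preimage (T2.continuous.norm)
  · rintro ⟨h1, -⟩
    have h2 : 0 < a / ρ := div_pos (hρ1.trans ha1) hρ0
    simp only [map_zero, norm_zero] at h1
    linarith
  · intro z hz
    have h1 : ‖T2 z‖ ^ 2 = 1 := by rw [hT2]; exact hz
    have h2 : ‖T2 z‖ = 1 := by
      have := norm_nonneg (T2 z)
      nlinarith
    refine ⟨?_, ?_⟩
    · rw [h2, div_lt_one hρ0, ha]; linarith
    · rw [h2, one_lt_div hρ0, hb]; linarith
  · rw [himage]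
    exact D.isOpenMap_p _ (D.isOpen_S a b)
  · intro z hz
    obtain ⟨h1, h2⟩ := hUm z hz
    refine MDifferentiableAt.mdifferentiableWithinAt ?_
    refine (D.p_holo _).comp z ((D.Θ_holo (l z) (ha1.trans h1) (h2.trans hb2)).comp z ?_)
    exact l.differentiableAt.mdifferentiableAt
  · rw [himage]
    rintro _ ⟨y, hy, rfl⟩
    refine MDifferentiableAt.mdifferentiableWithinAt ?_
    obtain ⟨s, hs1, hs2, hs3⟩ := D.p_sec y
    have h1 : MDifferentiableAt 𝓘(ℂ, Cm 2) 𝓘(ℂ, Cm 2) (fun x => l' (D.Pi (s x))) (D.p y) := by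
      have h2 : MDifferentiableAt 𝓘(ℂ, Cm 2) 𝓘(ℂ, Cm 2) D.Pi (s (D.p y)) := by
        rw [hs1]; exact D.Pi_holo y hy.1 (ha1.trans hy.2.1) (hy.2.2.trans hb2)
      exact (l'.differentiableAt.mdifferentiableAt).comp (D.p y) (h2.comp (D.p y) hs3)
    refine h1.congr_of_eventuallyEq ?_
    have h3 : ∀ᶠ x in 𝓝 (D.p y), s x ∈ D.S a b :=
      hs3.continuousAt.eventually (by rw [hs1]; exact (D.isOpen_S a b).mem_nhds hy)
    filter_upwards [h3, hs2] with x hx1 hx2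
    rw [← hG _ hx1, hx2]
  · intro z hz
    show G (D.p (D.Θ (l z))) = z
    rw [hG _ (hFS z hz).1, (hFS z hz).2, hll']
  · rw [himage, D.compl_eq ha1 hab hb2]
    exact (D.isConnected_T ha1 hab hb2).image _ D.p_holo.continuous.continuousOn

end Thin

/-- A countable closed subset of a punctured ball misses a thin shell. -/
theorem exists_shell_avoiding (A : Cm 2 ≃L[ℂ] E2) {R c : ℝ} (hR : 0 < R) (hc0 : 0 ≤ c) (hc : c < 1)
    {S : Set (Cm 2)} (hS : S.Countable)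
    (hSc : ∀ x, x ∉ S → x ≠ 0 → ‖A x‖ < R → Sᶜ ∈ 𝓝 x) :
    ∃ ρ₁ ρ₂ : ℝ, 0 < ρ₁ ∧ ρ₁ < ρ₂ ∧ ρ₂ < R ∧ c * ρ₂ ≤ ρ₁ ∧
      ∀ x ∈ S, ρ₁ < ‖A x‖ → ‖A x‖ < ρ₂ → False := by
  have hcont : Continuous fun x : Cm 2 => ‖A x‖ := A.continuous.norm
  set K : Set (Cm 2) := {x | R / 4 ≤ ‖A x‖ ∧ ‖A x‖ ≤ R / 2} with hK
  have hKc : IsCompact K := by
    have h1 : IsCompact (A.symm '' closedBall (0 : E2) (R / 2)) :=
      (isCompact_closedBall _ _).image A.symm.continuous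
    refine h1.of_isClosed_subset ?_ ?_
    · exact (isClosed_le continuous_const hcont).inter (isClosed_le hcont continuous_const)
    · intro x hx
      exact ⟨A x, by simpa using hx.2, by simp⟩
  have hSK : IsClosed (S ∩ K) := by
    rw [← isOpen_compl_iff, isOpen_iff_mem_nhds]
    intro x hx
    by_cases hxK : x ∈ K
    · have hxS : x ∉ S := fun h => hx ⟨h, hxK⟩
      have hx0 : x ≠ 0 := by
        intro h0
        have := hxK.1
        rw [h0] at this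
        simp at this
        linarith
      filter_upwards [hSc x hxS hx0 (by have := hxK.2; linarith)] with z hz h
      exact hz h.1
    · filter_upwards [hKc.isClosed.isOpen_compl.mem_nhds hxK] with z hz h
      exact hz h.2
  have hcomp : IsCompact ((fun x => ‖A x‖) '' (S ∩ K)) :=
    (hKc.of_isClosed_subset hSK inter_subset_right).image hcont
  have hcount : ((fun x => ‖A x‖) '' (S ∩ K)).Countable := (hS.mono inter_subset_left).image _
  obtain ⟨t, ht, htN⟩ : ∃ t ∈ Ioo (R / 4) (R / 2), t ∉ (fun x => ‖A x‖) '' (S ∩ K) := by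
    by_contra hcon
    push Not at hcon
    have h1 : (Ioo (R / 4) (R / 2)).Countable := hcount.mono hcon
    exact (Cardinal.Real.Ioo_countable_iff.1 h1).not_gt (by linarith)
  have hopen : ((fun x => ‖A x‖) '' (S ∩ K))ᶜ ∩ Ioo (R / 4) (R / 2) ∈ 𝓝 t :=
    (hcomp.isClosed.isOpen_compl.inter isOpen_Ioo).mem_nhds ⟨htN, ht⟩
  obtain ⟨e, he, hball⟩ := Metric.mem_nhds_iff.1 hopen
  have ht0 : 0 < t := by have := ht.1; linarith
  set η : ℝ := min (e / 2) ((1 - c) * t / 4) with hη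
  have hη0 : 0 < η := lt_min (by positivity) (by have : 0 < 1 - c := by linarith
                                                 positivity)
  have hηe : η ≤ e / 2 := min_le_left _ _
  have hηc : η ≤ (1 - c) * t / 4 := min_le_right _ _
  have hmem : ∀ u : ℝ, |u - t| < e → u ∈ ((fun x => ‖A x‖) '' (S ∩ K))ᶜ ∩ Ioo (R / 4) (R / 2) :=
    fun u hu => hball (by rwa [mem_ball, Real.dist_eq])
  have hc' : 0 < 1 - c := by linarith
  refine ⟨t - η, t + η, ?_, by linarith, ?_, ?_, ?_⟩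
  · have h1 : (1 - c) * t / 4 < t := by nlinarith
    linarith
  · have h1 := (hmem (t + η) (by rw [add_sub_cancel_left, abs_of_pos hη0]; linarith)).2.2
    linarith
  · nlinarith
  · intro x hxS h1 h2
    have h3 := hmem ‖A x‖ (by rw [abs_lt]; constructor <;> linarith)
    exact h3.1 ⟨x, ⟨hxS, h3.2.1.le, h3.2.2.le⟩, rfl⟩

/-- **The version with a countable exceptional set**: the coordinates `Pi` contract a Euclidean norm
under `φ` and are invertible off a countable closed subset `S` of the punctured ball. -/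
theorem hasGSS_of_countable {X Y : Type*} [TopologicalSpace X] [ChartedSpace (Cm 2) X]
    [TopologicalSpace Y] [ChartedSpace (Cm 2) Y] [PreconnectedSpace Y]
    -- the covering
    (p : Y → X) (p_surj : Function.Surjective p) (p_holo : MDifferentiable 𝓘(ℂ, Cm 2) 𝓘(ℂ, Cm 2) p)
    (p_sec : ∀ y, ∃ s : X → Y, s (p y) = y ∧ (∀ᶠ x in 𝓝 (p y), p (s x) = x) ∧
      MDifferentiableAt 𝓘(ℂ, Cm 2) 𝓘(ℂ, Cm 2) s (p y))
    (φ : Y ≃ₜ Y) (p_eq : ∀ y y', p y = p y' ↔ ∃ k : ℕ, φ^[k] y = y' ∨ φ^[k] y' = y)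
    -- the coordinates
    (Ω : Set Y) (Ω_open : IsOpen Ω) (Pi : Y → Cm 2) (Pi_cont : ContinuousOn Pi Ω)
    (A : Cm 2 ≃L[ℂ] E2) (R : ℝ) (R_pos : 0 < R) (S : Set (Cm 2)) (S_countable : S.Countable)
    (S_closed : ∀ x, x ∉ S → x ≠ 0 → ‖A x‖ < R → Sᶜ ∈ 𝓝 x) (Θ : Cm 2 → Y)
    (Pi_holo : ∀ y ∈ Ω, Pi y ≠ 0 → Pi y ∉ S → ‖A (Pi y)‖ < R →
      MDifferentiableAt 𝓘(ℂ, Cm 2) 𝓘(ℂ, Cm 2) Pi y)
    (Θ_holo : ∀ x, x ≠ 0 → x ∉ S → ‖A x‖ < R → MDifferentiableAt 𝓘(ℂ, Cm 2) 𝓘(ℂ, Cm 2) Θ x)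
    (Θ_mem : ∀ x, x ≠ 0 → x ∉ S → ‖A x‖ < R → Θ x ∈ Ω)
    (Pi_Θ : ∀ x, x ≠ 0 → x ∉ S → ‖A x‖ < R → Pi (Θ x) = x)
    (Θ_Pi : ∀ y ∈ Ω, Pi y ≠ 0 → Pi y ∉ S → ‖A (Pi y)‖ < R → Θ (Pi y) = y)
    (closed : ∀ s < R, IsClosed {y | y ∈ Ω ∧ ‖A (Pi y)‖ ≤ s})
    -- the contraction
    (c : ℝ) (c_nonneg : 0 ≤ c) (c_lt : c < 1)
    (contr : ∀ y ∈ Ω, ‖A (Pi y)‖ < R → φ y ∈ Ω ∧ ‖A (Pi (φ y))‖ ≤ c * ‖A (Pi y)‖)
    (absorb : ∀ y, ∃ k : ℕ, φ^[k] y ∈ Ω ∧ ‖A (Pi (φ^[k] y))‖ < R)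
    (exit : ∀ y, ∃ k : ℕ, φ.symm^[k] y ∉ Ω) : HasGSS X := by
  obtain ⟨ρ₁, ρ₂, h0, h12, h2R, hcρ, hSρ⟩ :=
    exists_shell_avoiding A R_pos c_nonneg c_lt S_countable S_closed
  have hne : ∀ x : Cm 2, ρ₁ < ‖A x‖ → x ≠ 0 := by
    intro x hx hx0
    rw [hx0] at hx
    simp at hx
    linarith
  have hit : ∀ y ∈ Ω, ‖A (Pi y)‖ < R → ∀ m : ℕ, φ^[m] y ∈ Ω ∧ ‖A (Pi (φ^[m] y))‖ < R ∧
      ‖A (Pi (φ^[m] y))‖ ≤ c ^ m * R := by
    intro y hy hlt m
    induction m with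
    | zero => exact ⟨hy, hlt, by rw [pow_zero, one_mul]; exact hlt.le⟩
    | succ m ih =>
      rw [Function.iterate_succ_apply']
      obtain ⟨i1, i2, i3⟩ := ih
      obtain ⟨j1, j2⟩ := contr _ i1 i2
      have j3 := norm_nonneg (A (Pi (φ^[m] y)))
      refine ⟨j1, ?_, ?_⟩
      · nlinarith
      · rw [pow_succ, mul_comm (c ^ m) c, mul_assoc]
        exact j2.trans (mul_le_mul_of_nonneg_left i3 c_nonneg)
  refine Thin.hasGSS (X := X) (Y := Y)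
    { p := p, φ := φ, Ω := Ω, Pi := Pi, Θ := Θ, A := A, ρ₁ := ρ₁, ρ₂ := ρ₂
      ρ₁_pos := h0
      ρ_lt := h12
      p_surj := p_surj
      p_holo := p_holo
      p_sec := p_sec
      p_eq := p_eq
      Ω_open := Ω_open
      Pi_cont := Pi_cont
      Pi_holo := fun y hy h1 h2 => Pi_holo y hy (hne _ h1) (fun h => hSρ _ h h1 h2) (h2.trans h2R)
      Θ_holo := fun x h1 h2 => Θ_holo x (hne _ h1) (fun h => hSρ _ h h1 h2) (h2.trans h2R)
      Θ_mem := fun x h1 h2 => Θ_mem x (hne _ h1) (fun h => hSρ _ h h1 h2) (h2.trans h2R)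
      Pi_Θ := fun x h1 h2 => Pi_Θ x (hne _ h1) (fun h => hSρ _ h h1 h2) (h2.trans h2R)
      Θ_Pi := fun y hy h1 h2 => Θ_Pi y hy (hne _ h1) (fun h => hSρ _ h h1 h2) (h2.trans h2R)
      closed := fun s hs => closed s (hs.trans h2R)
      contr := ?_
      absorb := ?_
      exit := exit }
  · intro y hy hlt
    obtain ⟨h1, h2⟩ := contr y hy (hlt.trans h2R)
    refine ⟨h1, h2.trans ?_⟩
    exact (mul_le_mul_of_nonneg_left hlt.le c_nonneg).trans hcρ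
  · intro y
    obtain ⟨k, hk1, hk2⟩ := absorb y
    have hlim : Tendsto (fun m : ℕ => c ^ m * R) atTop (𝓝 (0 * R)) :=
      (tendsto_pow_atTop_nhds_zero_of_lt_one c_nonneg c_lt).mul_const R
    rw [zero_mul] at hlim
    obtain ⟨m, hm⟩ := (hlim.eventually (gt_mem_nhds (h0.trans h12))).exists
    obtain ⟨h1, -, h3⟩ := hit _ hk1 hk2 m
    refine ⟨m + k, ?_, ?_⟩
    · rw [Function.iterate_add_apply]; exact h1
    · rw [Function.iterate_add_apply]; exact h3.trans_lt hm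

end Vale.Agent.P267.H615
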